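import Vale.Agent.P253.H202.Dich4
import Vale.Agent.P253.H51.Frame

/-!
P253: the dichotomy in a moving metric.
-/

open Filter Set
open scoped Topology

set_option linter.unusedSectionVars false

noncomputable section

namespace Vale.Agent.P253.H836

open Vale.Agent.P253.H202 Vale.Agent.P253.H51

variable {H : Type*} [NormedAddCommGroup H] [InnerProductSpace ℝ H] [FiniteDimensional ℝ H]

theorem isUnit_of_pos {P : H →L[ℝ] H} (hpos : ∀ a, a ≠ 0 → 0 < inner ℝ (P a) a) : IsUnit P := by
  have hinj : Function.Injective (P : H →ₗ[ℝ] H) := by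
    rw [← LinearMap.ker_eq_bot, LinearMap.ker_eq_bot']
    intro a ha
    by_contra h0
    have h1 := hpos a h0
    have h2 : P a = 0 := ha
    rw [h2, inner_zero_left] at h1
    exact lt_irrefl _ h1
  set L : H ≃ₗ[ℝ] H := LinearEquiv.ofInjectiveEndo (P : H →ₗ[ℝ] H) hinj with hL
  have h3 : (L.toContinuousLinearEquiv : H →L[ℝ] H) = P := by
    ext a
    rfl
  rw [← h3]
  exact (ContinuousLinearEquiv.toUnit L.toContinuousLinearEquiv).isUnit

/-- the dichotomy for a moving metric `⟪P a, b⟫` -/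
theorem op_dichotomy {P S T : ℝ → H →L[ℝ] H} (hP : ∀ t, Sym (P t))
    (hpos : ∀ t a, a ≠ 0 → 0 < inner ℝ (P t a) a) (hS : ∀ t, Sym (S t))
    (dP : ∀ t, HasDerivAt P ((2 : ℝ) • S t) t) (dS : ∀ t, HasDerivAt S (T t) t)
    (hT : ∀ t a n, P t n = S t a → inner ℝ (T t a) a ≤ 2 * inner ℝ (P t n) n)
    (hP0 : P 0 = 1) {v : H} (hv : v ≠ 0) :
    (∃ C s, 0 < s ∧ ∀ t, 0 ≤ t → inner ℝ (P t v) v ≤ C * Real.exp (-s * t)) ∨
    (∃ b > 0, ∀ t, 0 ≤ t → b ≤ inner ℝ (P t v) v) := by
  set Q : ℝ → H →L[ℝ] H := fun t => Ring.inverse (P t) with hQd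
  have hu : ∀ t, IsUnit (P t) := fun t => isUnit_of_pos (hpos t)
  have hPQ : ∀ t, P t * Q t = 1 := fun t => Ring.mul_inverse_cancel _ (hu t)
  have hQP : ∀ t, Q t * P t = 1 := fun t => Ring.inverse_mul_cancel _ (hu t)
  have dQ : ∀ t, HasDerivAt Q (-(Q t * ((2 : ℝ) • S t) * Q t)) t := by
    intro t
    obtain ⟨u, hu'⟩ := hu t
    have h2 : HasFDerivAt Ring.inverse
        (-ContinuousLinearMap.mulLeftRight ℝ (H →L[ℝ] H) ↑u⁻¹ ↑u⁻¹) (P t) := by
      rw [← hu']
      exact hasFDerivAt_ringInverse (𝕜 := ℝ) u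
    have h3 := h2.comp_hasDerivAt t (dP t)
    have h4 : (↑u⁻¹ : H →L[ℝ] H) = Q t := by
      simp only [hQd]
      rw [← hu', Ring.inverse_unit]
    rw [h4] at h3
    exact h3
  set N : ℝ → H →L[ℝ] H := fun t => Q t * S t with hNd
  set N' : ℝ → H →L[ℝ] H := fun t => -(Q t * ((2 : ℝ) • S t) * Q t) * S t + Q t * T t with hN'd
  have dN : ∀ t, HasDerivAt N (N' t) t := fun t => (dQ t).mul (dS t)
  have hNc : Continuous N := continuous_iff_continuousAt.2 fun t => (dN t).continuousAt
  have hPN : ∀ t, P t * N t = S t := by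
    intro t
    simp only [hNd]
    rw [← mul_assoc, hPQ, one_mul]
  obtain ⟨A, B, hA0, hB0, dA, dB, hBA, hAB⟩ := exists_frame hNc
  -- the frame is an isometry
  have happ : ∀ (X Y : H →L[ℝ] H) (a : H), (X * Y) a = X (Y a) := fun X Y a => rfl
  have hiso : ∀ t a b, inner ℝ (P t (A t a)) (A t b) = inner ℝ a b := by
    intro t a b
    have hd : ∀ t, HasDerivAt (fun t => inner ℝ (P t (A t a)) (A t b)) 0 t := by
      intro t
      have h1 : HasDerivAt (fun t => A t a) (-(N t (A t a))) t := by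
        have h0 := (dA t).clm_apply (hasDerivAt_const t a)
        simpa [happ] using h0
      have h2 : HasDerivAt (fun t => A t b) (-(N t (A t b))) t := by
        have h0 := (dA t).clm_apply (hasDerivAt_const t b)
        simpa [happ] using h0
      have h3 := ((dP t).clm_apply h1).inner ℝ h2
      refine h3.congr_deriv ?_
      have e1 : P t (N t (A t a)) = S t (A t a) := by
        rw [← happ, hPN]
      have e2 : inner ℝ (P t (A t a)) (N t (A t b)) = inner ℝ (A t a) (S t (A t b)) := by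
        rw [hP t, ← happ, hPN]
      simp only [smul_apply, map_neg, inner_neg_right, inner_add_left,
        inner_neg_left, real_inner_smul_left, e1, e2]
      rw [hS t (A t a) (A t b)]
      ring
    have h1 := is_const_of_deriv_eq_zero (f := fun t => inner ℝ (P t (A t a)) (A t b))
      (fun t => (hd t).differentiableAt) (fun t => (hd t).deriv) t 0
    rw [h1, hA0, hP0]
    rfl
  -- the transpose
  have hB : ∀ t x b, inner ℝ (B t x) b = inner ℝ (P t x) (A t b) := by
    intro t x b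
    have h1 := hiso t (B t x) b
    rw [← happ (A t) (B t), hAB] at h1
    exact h1.symm
  set Nh : ℝ → H →L[ℝ] H := fun t => B t * N t * A t with hNh
  set K : ℝ → H →L[ℝ] H := fun t => B t * N' t * A t with hK
  have hNhapp : ∀ t a b, inner ℝ (Nh t a) b = inner ℝ (S t (A t a)) (A t b) := by
    intro t a b
    have h1 : Nh t a = B t (N t (A t a)) := rfl
    rw [h1, hB, ← happ (P t) (N t), hPN]
  have dNh : ∀ t, HasDerivAt Nh (K t) t := by
    intro t
    have h1 := ((dB t).mul (dN t)).mul (dA t)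
    refine h1.congr_deriv ?_
    simp only [hK, Pi.mul_apply]
    noncomm_ring
  have hsys : Sys Nh K (fun t => B t v) (1 + ‖Nh 0‖) := by
    refine ⟨fun t a b => ?_, dNh, fun t a => ?_, fun t => ?_, fun t h0 => ?_, fun a => ?_⟩
    · rw [hNhapp, real_inner_comm (Nh t b) a, hNhapp, hS t (A t b), real_inner_comm]
    · have h1 : K t a = B t (N' t (A t a)) := rfl
      rw [neg_apply, inner_neg_left, h1, hB, neg_nonneg]
      have h2 : P t (N' t (A t a)) = -((2 : ℝ) • S t (N t (A t a))) + T t (A t a) := by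
        have h3 : P t * N' t = -((2 : ℝ) • (S t * N t)) + T t := by
          simp only [hN'd, hNd]
          rw [mul_add, ← mul_assoc (P t) (Q t) (T t), hPQ, one_mul, neg_mul, mul_neg,
            mul_assoc (Q t), mul_assoc (Q t), ← mul_assoc (P t), hPQ, one_mul, smul_mul_assoc,
            smul_mul_assoc, mul_assoc]
        have h4 := congrArg (fun X : H →L[ℝ] H => X (A t a)) h3
        exact h4
      rw [h2, inner_add_left, inner_neg_left, real_inner_smul_left]
      have h5 := hT t (A t a) (N t (A t a)) (by rw [← happ, hPN])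
      have h6 : inner ℝ (S t (N t (A t a))) (A t a) =
          inner ℝ (P t (N t (A t a))) (N t (A t a)) := by
        rw [hS t, real_inner_comm, ← happ (P t) (N t), hPN]
      rw [h6]
      linarith
    · have h1 : HasDerivAt (fun t => B t v) (B t (N t v)) t := by
        have h0 := (dB t).clm_apply (hasDerivAt_const t v)
        simpa [happ] using h0
      refine h1.congr_deriv ?_
      have h2 : Nh t (B t v) = B t (N t ((A t * B t) v)) := rfl
      rw [h2, hAB]
      rfl
    · apply hv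
      have h1 : (A t * B t) v = A t (B t v) := rfl
      rw [hAB, h0, map_zero] at h1
      exact h1
    · have h1 : inner ℝ (Nh 0 a) a ≤ ‖Nh 0‖ * inner ℝ a a := by
        refine (real_inner_le_norm _ _).trans ?_
        rw [real_inner_self_eq_norm_sq, sq, ← mul_assoc]
        exact mul_le_mul_of_nonneg_right ((Nh 0).le_opNorm a) (norm_nonneg a)
      rw [add_sub_cancel_left]
      exact h1
  have hgg : ∀ t, gg (fun t => B t v) t = inner ℝ (P t v) v := by
    intro t
    have h1 : gg (fun t => B t v) t = inner ℝ (B t v) (B t v) := rfl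
    rw [h1, hB, ← happ (A t) (B t), hAB]
    rfl
  have h1 := hsys.dichotomy (by positivity)
  simp only [hgg] at h1
  exact h1

/-- the operator of a form -/
def opL {F : Type*} [NormedAddCommGroup F] [NormedSpace ℝ F] (ψ : H ≃L[ℝ] F)
    (β : F →L[ℝ] F →L[ℝ] ℝ) : H →L[ℝ] H :=
  ∑ i, ∑ j, β (ψ (stdOrthonormalBasis ℝ H j)) (ψ (stdOrthonormalBasis ℝ H i)) •
    (innerSL ℝ (stdOrthonormalBasis ℝ H j)).smulRight (stdOrthonormalBasis ℝ H i)

theorem inner_opL {F : Type*} [NormedAddCommGroup F] [NormedSpace ℝ F] (ψ : H ≃L[ℝ] F)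
    (β : F →L[ℝ] F →L[ℝ] ℝ) (a b : H) : inner ℝ (opL ψ β a) b = β (ψ a) (ψ b) := by
  have hb := (stdOrthonormalBasis ℝ H).sum_repr' b
  have ha := (stdOrthonormalBasis ℝ H).sum_repr' a
  have h1 : opL ψ β a = ∑ i, ∑ j, β (ψ (stdOrthonormalBasis ℝ H j))
      (ψ (stdOrthonormalBasis ℝ H i)) • (inner ℝ (stdOrthonormalBasis ℝ H j) a •
        stdOrthonormalBasis ℝ H i) := by
    simp only [opL, sum_apply, smul_apply, ContinuousLinearMap.smulRight_apply, innerSL_apply_apply]
  rw [h1]
  conv_rhs => rw [← ha, ← hb]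
  simp only [map_sum, map_smul, smul_eq_mul, sum_inner, real_inner_smul_left, sum_apply,
    smul_apply, Finset.mul_sum]
  refine Finset.sum_congr rfl fun i _ => Finset.sum_congr rfl fun j _ => ?_
  ring

theorem hasDerivAt_opL {F : Type*} [NormedAddCommGroup F] [NormedSpace ℝ F] (ψ : H ≃L[ℝ] F)
    {X : ℝ → F →L[ℝ] F →L[ℝ] ℝ} {X' : F →L[ℝ] F →L[ℝ] ℝ} {t : ℝ} (h : HasDerivAt X X' t) :
    HasDerivAt (fun t => opL ψ (X t)) (opL ψ X') t := by
  unfold opL
  refine HasDerivAt.fun_sum fun i _ => HasDerivAt.fun_sum fun j _ => ?_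
  have h1 := (h.clm_apply (hasDerivAt_const t (ψ (stdOrthonormalBasis ℝ H j)))).clm_apply
    (hasDerivAt_const t (ψ (stdOrthonormalBasis ℝ H i)))
  simp only [map_zero, add_zero] at h1
  have h2 : HasDerivAt (fun t => X t (ψ (stdOrthonormalBasis ℝ H j))
      (ψ (stdOrthonormalBasis ℝ H i)))
      (X' (ψ (stdOrthonormalBasis ℝ H j)) (ψ (stdOrthonormalBasis ℝ H i))) t := h1
  exact HasDerivAt.smul_const (𝕜 := ℝ) h2
    ((innerSL ℝ (stdOrthonormalBasis ℝ H j)).smulRight (stdOrthonormalBasis ℝ H i) : H →L[ℝ] H)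

theorem opL_smul {F : Type*} [NormedAddCommGroup F] [NormedSpace ℝ F] (ψ : H ≃L[ℝ] F) (c : ℝ)
    (β : F →L[ℝ] F →L[ℝ] ℝ) : opL ψ (c • β) = c • opL ψ β := by
  simp only [opL, Finset.smul_sum, smul_apply, smul_smul, smul_eq_mul]

/-- **the dichotomy for moving forms** -/
theorem form_dichotomy {F : Type*} [NormedAddCommGroup F] [NormedSpace ℝ F]
    [FiniteDimensional ℝ F] (ψ : H ≃L[ℝ] F) {G S T : ℝ → F →L[ℝ] F →L[ℝ] ℝ}
    (hG : ∀ t a b, G t a b = G t b a) (hpos : ∀ t a, a ≠ 0 → 0 < G t a a)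
    (hS : ∀ t a b, S t a b = S t b a) (dG : ∀ t, HasDerivAt G ((2 : ℝ) • S t) t)
    (dS : ∀ t, HasDerivAt S (T t) t)
    (hT : ∀ t a n, (∀ b, G t n b = S t a b) → T t a a ≤ 2 * G t n n)
    (hψ : ∀ a b, G 0 (ψ a) (ψ b) = inner ℝ a b) {v : F} (hv : v ≠ 0) :
    (∃ C s, 0 < s ∧ ∀ t, 0 ≤ t → G t v v ≤ C * Real.exp (-s * t)) ∨
    (∃ b > 0, ∀ t, 0 ≤ t → b ≤ G t v v) := by
  have hv' : ψ.symm v ≠ 0 := by
    intro h
    apply hv
    rw [← ψ.apply_symm_apply v, h, map_zero]
  have key := op_dichotomy (P := fun t => opL ψ (G t)) (S := fun t => opL ψ (S t))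
    (T := fun t => opL ψ (T t))
    (fun t a b => by rw [inner_opL, real_inner_comm, inner_opL, hG])
    (fun t a ha => by
      rw [inner_opL]
      refine hpos t _ fun h => ha ?_
      rw [← ψ.symm_apply_apply a, h, map_zero])
    (fun t a b => by rw [inner_opL, real_inner_comm, inner_opL, hS])
    (fun t => by
      have h1 := hasDerivAt_opL ψ (dG t)
      rwa [opL_smul] at h1)
    (fun t => hasDerivAt_opL ψ (dS t))
    (fun t a n h => by
      rw [inner_opL, inner_opL]
      refine hT t (ψ a) (ψ n) fun b => ?_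
      have h1 := congrArg (fun x : H => inner ℝ x (ψ.symm b)) h
      simp only [inner_opL, ψ.apply_symm_apply] at h1
      exact h1)
    (by
      ext a
      refine ext_inner_right ℝ fun b => ?_
      rw [inner_opL, hψ]
      rfl) hv'
  simp only [inner_opL, ψ.apply_symm_apply] at key
  exact key

end Vale.Agent.P253.H836
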