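import Vale.Agent.P253.H661.Lim

/-!
P253, H836: ultrafilter limits of distance preserving holomorphic maps fixing a point, with
convergence of the differentials at the point ((L) of row 15609).
-/

open scoped Manifold ContDiff Topology Bundle
open Set Metric Complex Filter Bundle IsManifold Manifold Vale.Agent.P253.Mfd

set_option maxSynthPendingDepth 3
set_option linter.unusedSectionVars false

noncomputable section

namespace Vale.Agent.P253.H836

variable {E : Type*} [NormedAddCommGroup E] [NormedSpace ℂ E] [FiniteDimensional ℂ E]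
  {M : Type*} [MetricSpace M] [ChartedSpace E M] [IsManifold 𝓘(ℂ, E) 1 M]

/-- The differential of a map at a fixed point, in the preferred chart. -/
theorem mfderiv_fix {f : M → M} {p : M} (hf : MDifferentiable 𝓘(ℂ, E) 𝓘(ℂ, E) f)
    (hfp : f p = p) (v : E) :
    (mfderiv 𝓘(ℂ, E) 𝓘(ℂ, E) f p : E → E) v =
      fderiv ℂ (fun z => chartAt E p (f ((chartAt E p).symm z))) (chartAt E p p) v := by
  have h1 : writtenInExtChartAt 𝓘(ℂ, E) 𝓘(ℂ, E) p f =
      fun z => chartAt E p (f ((chartAt E p).symm z)) := by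
    funext z
    simp [writtenInExtChartAt, hfp]
  have h2 := (hf p).mfderiv
  rw [h1] at h2
  have h3 : (mfderiv 𝓘(ℂ, E) 𝓘(ℂ, E) f p : E → E) v =
      fderivWithin ℂ (fun z => chartAt E p (f ((chartAt E p).symm z))) (range 𝓘(ℂ, E))
        (extChartAt 𝓘(ℂ, E) p p) v := congrArg (fun T : E →L[ℂ] E => T v) h2
  rw [h3]
  simp only [extChartAt, mfld_simps, fderivWithin_univ]
  rfl

/-- **Ultrafilter limits of holomorphic isometries fixing `p`.** -/
theorem exists_limit [ProperSpace M] {p : M} {ι : Type*} (u : Ultrafilter ι) {g : ι → M → M}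
    (hg : ∀ i, MDifferentiable 𝓘(ℂ, E) 𝓘(ℂ, E) (g i))
    (hd : ∀ i x y, dist (g i x) (g i y) = dist x y) (hp : ∀ i, g i p = p) :
    ∃ G : M → M, MDifferentiable 𝓘(ℂ, E) 𝓘(ℂ, E) G ∧ (∀ x y, dist (G x) (G y) = dist x y) ∧
      G p = p ∧ (∀ x, Tendsto (fun i => g i x) u (𝓝 (G x))) ∧
      ∀ v : E, Tendsto (fun i => (mfderiv 𝓘(ℂ, E) 𝓘(ℂ, E) (g i) p : E → E) v) u
        (𝓝 ((mfderiv 𝓘(ℂ, E) 𝓘(ℂ, E) G p : E → E) v)) := by
  have hCE : CompleteSpace E := FiniteDimensional.complete ℂ E
  have hPE : ProperSpace E := FiniteDimensional.proper ℂ E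
  have hlim : ∀ x, ∃ y, Tendsto (fun i => g i x) u (𝓝 y) := by
    intro x
    have hK := isCompact_closedBall p (dist x p)
    obtain ⟨y, -, hy⟩ := hK.ultrafilter_le_nhds (u.map fun i => g i x) (by
      rw [le_principal_iff, Ultrafilter.mem_coe, Ultrafilter.mem_map]
      refine Filter.univ_mem' fun i => ?_
      have := hd i x p
      rw [hp i] at this
      exact mem_closedBall.2 this.le)
    exact ⟨y, hy⟩
  choose G hG using hlim
  have hGd : ∀ x y, dist (G x) (G y) = dist x y := by
    intro x y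
    have h1 : Tendsto (fun i => dist (g i x) (g i y)) u (𝓝 (dist (G x) (G y))) :=
      (hG x).dist (hG y)
    have h2 : Tendsto (fun i => dist (g i x) (g i y)) u (𝓝 (dist x y)) := by
      simp only [hd]
      exact tendsto_const_nhds
    exact tendsto_nhds_unique h1 h2
  have hGp : G p = p := by
    have h1 := hG p
    simp only [hp] at h1
    exact tendsto_nhds_unique h1 tendsto_const_nhds
  have hloc : ∀ x, ∀ ε > 0, ∃ U ∈ 𝓝 x, ∀ᶠ j in (u : Filter ι), ∀ y ∈ U,
      dist (g j y) (G y) < ε := by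
    intro x ε hε
    refine ⟨ball x (ε / 4), ball_mem_nhds _ (by positivity), ?_⟩
    have h1 : ∀ᶠ j in (u : Filter ι), dist (g j x) (G x) < ε / 2 :=
      (hG x).eventually (ball_mem_nhds _ (by positivity))
    filter_upwards [h1] with j hj y hy
    rw [mem_ball] at hy
    have h2 := hd j y x
    have h3 := hGd x y
    rw [dist_comm x y] at h3
    have h4 := dist_triangle4 (g j y) (g j x) (G x) (G y)
    linarith
  have hGm : MDifferentiable 𝓘(ℂ, E) 𝓘(ℂ, E) G := H661.holo_lim hg hloc
  refine ⟨G, hGm, hGd, hGp, hG, fun v => ?_⟩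
  -- local uniform convergence
  have hTLU : TendstoLocallyUniformly g G u := by
    rw [Metric.tendstoLocallyUniformly_iff]
    intro ε hε x
    obtain ⟨U, hU, h1⟩ := hloc x ε hε
    refine ⟨U, hU, h1.mono fun j hj y hy => ?_⟩
    rw [dist_comm]
    exact hj y hy
  -- charts
  set c := chartAt E p with hc
  have hcm : c ∈ maximalAtlas 𝓘(ℂ, E) 1 M := chart_mem_maximalAtlas p
  have hps : p ∈ c.source := mem_chart_source E p
  have hz0 : c p ∈ c.target := c.map_source hps
  obtain ⟨ρ, hρ, hρs⟩ := Metric.nhds_basis_closedBall.mem_iff.1 (c.open_source.mem_nhds hps)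
  have hev : ∀ᶠ z in 𝓝 (c p), z ∈ c.target ∧ c.symm z ∈ closedBall p ρ := by
    have h1 : Tendsto c.symm (𝓝 (c p)) (𝓝 p) := by
      have := (c.continuousAt_symm hz0).tendsto
      rwa [c.left_inv hps] at this
    exact (c.open_target.eventually_mem hz0).and (h1 (closedBall_mem_nhds p hρ))
  obtain ⟨r, hr, hrB⟩ := Metric.nhds_basis_closedBall.eventually_iff.1 hev
  have hBc : IsCompact (c.symm '' closedBall (c p) r) :=
    (isCompact_closedBall (c p) r).image_of_continuousOn
      (c.continuousOn_symm.mono fun z hz => (hrB hz).1)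
  have hunif : TendstoUniformlyOn g G u (c.symm '' closedBall (c p) r) := by
    have hlc : LocallyCompactSpace M := ChartedSpace.locallyCompactSpace E M
    exact tendstoLocallyUniformly_iff_forall_isCompact.1 hTLU _ hBc
  have hK := isCompact_closedBall p ρ
  have huc := hK.uniformContinuousOn_of_continuous (c.continuousOn.mono hρs)
  -- the maps in the chart
  have hin : ∀ f : M → M, (∀ x y, dist (f x) (f y) = dist x y) → f p = p →
      ∀ z ∈ closedBall (c p) r, f (c.symm z) ∈ closedBall p ρ := by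
    intro f hfd hfp z hz
    have h1 := (hrB hz).2
    have h2 := hfd (c.symm z) p
    rw [hfp] at h2
    rw [mem_closedBall] at h1 ⊢
    linarith
  have hdiff : ∀ f : M → M, MDifferentiable 𝓘(ℂ, E) 𝓘(ℂ, E) f →
      (∀ x y, dist (f x) (f y) = dist x y) → f p = p →
      DifferentiableOn ℂ (fun z => c (f (c.symm z))) (ball (c p) r) := by
    intro f hf hfd hfp z hz
    have hz' : z ∈ closedBall (c p) r := ball_subset_closedBall hz
    have h1 : MDifferentiableAt 𝓘(ℂ, E) 𝓘(ℂ, E) c.symm z :=
      ((contMDiffOn_symm_of_mem_maximalAtlas hcm).contMDiffAt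
        (c.open_target.mem_nhds (hrB hz').1)).mdifferentiableAt (by simp)
    have h2 : MDifferentiableAt 𝓘(ℂ, E) 𝓘(ℂ, E) f (c.symm z) := hf _
    have h3 : MDifferentiableAt 𝓘(ℂ, E) 𝓘(ℂ, E) c (f (c.symm z)) :=
      ((contMDiffOn_of_mem_maximalAtlas hcm).contMDiffAt
        (c.open_source.mem_nhds (hρs (hin f hfd hfp z hz')))).mdifferentiableAt (by simp)
    have h4 := h3.comp z (h2.comp z h1)
    exact h4.differentiableAt.differentiableWithinAt
  have hball : ball (c p) r ∈ 𝓝 (c p) := ball_mem_nhds _ hr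
  have key : Tendsto (fun i => fderiv ℂ (fun z => c (g i (c.symm z))) (c p)) u
      (𝓝 (fderiv ℂ (fun z => c (G (c.symm z))) (c p))) := by
    rw [Metric.tendsto_nhds]
    intro ε hε
    obtain ⟨δ, hδ, h2⟩ := Metric.uniformContinuousOn_iff.1 huc (ε * r / 4) (by positivity)
    filter_upwards [Metric.tendstoUniformlyOn_iff.1 hunif δ hδ] with j hj
    have hdj := hdiff (g j) (hg j) (hd j) (hp j)
    have hdG := hdiff G hGm hGd hGp
    have h3 : fderiv ℂ (fun z => c (g j (c.symm z))) (c p)
        - fderiv ℂ (fun z => c (G (c.symm z))) (c p) =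
        fderiv ℂ (fun z => c (g j (c.symm z)) - c (G (c.symm z))) (c p) := by
      rw [fderiv_fun_sub (hdj.differentiableAt hball) (hdG.differentiableAt hball)]
    rw [dist_eq_norm, h3]
    have h4 := H661.cauchy_est (C := ε * r / 4) hr (hdj.sub hdG) (fun z hz => by
      have hz' : z ∈ closedBall (c p) r := ball_subset_closedBall hz
      have h5 := hj (c.symm z) (mem_image_of_mem _ hz')
      rw [dist_comm] at h5
      have h6 := h2 _ (hin (g j) (hd j) (hp j) z hz') _ (hin G hGd hGp z hz') h5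
      rw [dist_eq_norm] at h6
      exact h6.le)
    calc _ ≤ 2 * (ε * r / 4) / r := h4
      _ = ε / 2 := by field_simp; ring
      _ < ε := by linarith
  have h7 : ∀ i, (mfderiv 𝓘(ℂ, E) 𝓘(ℂ, E) (g i) p : E → E) v =
      fderiv ℂ (fun z => c (g i (c.symm z))) (c p) v := fun i => mfderiv_fix (hg i) (hp i) v
  have h8 : (mfderiv 𝓘(ℂ, E) 𝓘(ℂ, E) G p : E → E) v =
      fderiv ℂ (fun z => c (G (c.symm z))) (c p) v := mfderiv_fix hGm hGp v
  rw [h8]
  refine Tendsto.congr (fun i => (h7 i).symm) ?_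
  exact ((ContinuousLinearMap.apply ℂ E v).continuous.tendsto _).comp key

end Vale.Agent.P253.H836
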