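import Vale.Agent.P253.H89.Fam
import Vale.Agent.P253.H836.LimIso

/-!
P253, H836: bounded families of holomorphic self-maps of a complete noncompact Kähler manifold of
positive bisectional curvature are equicontinuous; ultrafilter limits of such families, with
convergence of the differentials at a common fixed point ((E) and (L') of row 16483).
-/

open scoped Manifold ContDiff Topology Bundle
open Set Metric Complex Filter Bundle IsManifold Manifold Module Vale.Agent.P253.Mfd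
  Vale.Agent.P253.H805 Vale.Agent.P253.H89

set_option maxSynthPendingDepth 3
set_option linter.unusedSectionVars false

noncomputable section

namespace Vale.Agent.P253.H836

open Vale.Agent.P253.R2

section lim

variable {E : Type*} [NormedAddCommGroup E] [NormedSpace ℂ E] [FiniteDimensional ℂ E]
  {M : Type*} [MetricSpace M] [ChartedSpace E M] [IsManifold 𝓘(ℂ, E) 1 M]

/-- **Ultrafilter limits of a bounded equicontinuous family of holomorphic maps fixing `p`.** -/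
theorem exists_limit_eq {p : M} {ι : Type*} (u : Ultrafilter ι) {g : ι → M → M}
    (hg : ∀ i, MDifferentiable 𝓘(ℂ, E) 𝓘(ℂ, E) (g i)) (hp : ∀ i, g i p = p)
    (hB : ∀ C : Set M, IsCompact C → ∃ C' : Set M, IsCompact C' ∧ ∀ i, ∀ x ∈ C, g i x ∈ C')
    (heq : ∀ x₁ : M, ∀ ε > 0, ∃ U ∈ 𝓝 x₁, ∀ i, ∀ x ∈ U, ∀ y ∈ U, dist (g i x) (g i y) < ε) :
    ∃ F : M → M, MDifferentiable 𝓘(ℂ, E) 𝓘(ℂ, E) F ∧ F p = p ∧
      (∀ C C' : Set M, IsClosed C' → (∀ i, ∀ x ∈ C, g i x ∈ C') → ∀ x ∈ C, F x ∈ C') ∧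
      (∀ x, Tendsto (fun i => g i x) u (𝓝 (F x))) ∧
      (∀ C : Set M, IsCompact C → ∀ ε > 0, ∀ᶠ i in (u : Filter ι), ∀ y ∈ C,
        dist (g i y) (F y) < ε) ∧
      (∀ x₁ : M, ∀ ε > 0, ∃ U ∈ 𝓝 x₁, ∀ᶠ i in (u : Filter ι), ∀ y ∈ U, dist (g i y) (F y) < ε) ∧
      ∀ v : E, Tendsto (fun i => (mfderiv 𝓘(ℂ, E) 𝓘(ℂ, E) (g i) p : E → E) v) u
        (𝓝 ((mfderiv 𝓘(ℂ, E) 𝓘(ℂ, E) F p : E → E) v)) := by
  have hCE : CompleteSpace E := FiniteDimensional.complete ℂ E
  have hPE : ProperSpace E := FiniteDimensional.proper ℂ E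
  have hlim : ∀ x, ∃ y, Tendsto (fun i => g i x) u (𝓝 y) := by
    intro x
    obtain ⟨C', hC', h⟩ := hB {x} isCompact_singleton
    obtain ⟨y, -, hy⟩ := hC'.ultrafilter_le_nhds (u.map fun i => g i x) (by
      rw [le_principal_iff, Ultrafilter.mem_coe, Ultrafilter.mem_map]
      exact Filter.univ_mem' fun i => h i x rfl)
    exact ⟨y, hy⟩
  choose F hF using hlim
  have hFp : F p = p := by
    have h1 := hF p
    simp only [hp] at h1
    exact tendsto_nhds_unique h1 tendsto_const_nhds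
  have hFeq : ∀ x₁ : M, ∀ ε > 0, ∃ U ∈ 𝓝 x₁, ∀ x ∈ U, ∀ y ∈ U, dist (F x) (F y) ≤ ε := by
    intro x₁ ε hε
    obtain ⟨U, hU, h⟩ := heq x₁ ε hε
    refine ⟨U, hU, fun x hx y hy => ?_⟩
    exact le_of_tendsto ((hF x).dist (hF y)) (Eventually.of_forall fun j => (h j x hx y hy).le)
  have hloc : ∀ x₁ : M, ∀ ε > 0, ∃ U ∈ 𝓝 x₁, ∀ᶠ j in (u : Filter ι), ∀ y ∈ U,
      dist (g j y) (F y) < ε := by
    intro x₁ ε hε
    obtain ⟨U, hU, h⟩ := heq x₁ (ε / 3) (by positivity)
    obtain ⟨U', hU', h'⟩ := hFeq x₁ (ε / 3) (by positivity)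
    refine ⟨U ∩ U', inter_mem hU hU', ?_⟩
    filter_upwards [Metric.tendsto_nhds.1 (hF x₁) (ε / 3) (by positivity)] with j hj' y hy
    have h1 := h j y hy.1 x₁ (mem_of_mem_nhds hU)
    have h2 := h' x₁ (mem_of_mem_nhds hU') y hy.2
    have h3 := dist_triangle4 (g j y) (g j x₁) (F x₁) (F y)
    linarith
  have hunif : ∀ C : Set M, IsCompact C → ∀ ε > 0, ∀ᶠ j in (u : Filter ι), ∀ y ∈ C,
      dist (g j y) (F y) < ε := by
    intro C hC ε hε
    refine hC.induction_on (p := fun S => ∀ᶠ j in (u : Filter ι), ∀ y ∈ S,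
      dist (g j y) (F y) < ε) ?_ ?_ ?_ ?_
    · exact Eventually.of_forall fun n x hx => absurd hx (notMem_empty x)
    · intro S T hST hT
      filter_upwards [hT] with n hn x hx
      exact hn x (hST hx)
    · intro S T hS hT
      filter_upwards [hS, hT] with n h1 h2 x hx
      exact hx.elim (h1 x) (h2 x)
    · intro x _
      obtain ⟨U, hU, hn⟩ := hloc x ε hε
      exact ⟨U, mem_nhdsWithin_of_mem_nhds hU, hn⟩
  have hFm : MDifferentiable 𝓘(ℂ, E) 𝓘(ℂ, E) F := H661.holo_lim hg hloc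
  refine ⟨F, hFm, hFp, ?_, hF, hunif, hloc, fun v => ?_⟩
  · intro C C' hC' h x hx
    exact hC'.mem_of_tendsto (hF x) (Eventually.of_forall fun i => h i x hx)
  -- charts
  set c := chartAt E p with hc
  have hcm : c ∈ maximalAtlas 𝓘(ℂ, E) 1 M := chart_mem_maximalAtlas p
  have hps : p ∈ c.source := mem_chart_source E p
  have hz0 : c p ∈ c.target := c.map_source hps
  -- a compact neighbourhood of `p` in the chart domain
  have hlc : LocallyCompactSpace M := ChartedSpace.locallyCompactSpace E M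
  obtain ⟨K, hK, hKs, hKc⟩ := local_compact_nhds (c.open_source.mem_nhds hps)
  obtain ⟨ρ, hρ, hρK⟩ := Metric.mem_nhds_iff.1 hK
  obtain ⟨U, hU, hUeq⟩ := heq p (ρ / 2) (by positivity)
  have hUg : ∀ i, ∀ x ∈ U, g i x ∈ ball p (ρ / 2) := by
    intro i x hx
    have h1 := hUeq i x hx p (mem_of_mem_nhds hU)
    rw [hp i] at h1
    exact h1
  have hgU : ∀ i, ∀ x ∈ U, g i x ∈ K := fun i x hx =>
    hρK (ball_subset_ball (by linarith) (hUg i x hx))
  have hFU : ∀ x ∈ U, F x ∈ K := by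
    intro x hx
    refine hρK ?_
    have h1 : dist (F x) p ≤ ρ / 2 :=
      le_of_tendsto ((hF x).dist tendsto_const_nhds)
        (Eventually.of_forall fun i => (mem_ball.1 (hUg i x hx)).le)
    rw [mem_ball]
    linarith
  have hev : ∀ᶠ z in 𝓝 (c p), z ∈ c.target ∧ c.symm z ∈ U := by
    have h1 : Tendsto c.symm (𝓝 (c p)) (𝓝 p) := by
      have := (c.continuousAt_symm hz0).tendsto
      rwa [c.left_inv hps] at this
    exact (c.open_target.eventually_mem hz0).and (h1 hU)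
  obtain ⟨r, hr, hrB⟩ := Metric.nhds_basis_closedBall.eventually_iff.1 hev
  have hBc : IsCompact (c.symm '' closedBall (c p) r) :=
    (isCompact_closedBall (c p) r).image_of_continuousOn
      (c.continuousOn_symm.mono fun z hz => (hrB hz).1)
  have huc := hKc.uniformContinuousOn_of_continuous (c.continuousOn.mono hKs)
  have hdiff : ∀ f : M → M, MDifferentiable 𝓘(ℂ, E) 𝓘(ℂ, E) f → (∀ x ∈ U, f x ∈ K) →
      DifferentiableOn ℂ (fun z => c (f (c.symm z))) (ball (c p) r) := by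
    intro f hf hfU z hz
    have hz' : z ∈ closedBall (c p) r := ball_subset_closedBall hz
    have h1 : MDifferentiableAt 𝓘(ℂ, E) 𝓘(ℂ, E) c.symm z :=
      ((contMDiffOn_symm_of_mem_maximalAtlas hcm).contMDiffAt
        (c.open_target.mem_nhds (hrB hz').1)).mdifferentiableAt (by simp)
    have h2 : MDifferentiableAt 𝓘(ℂ, E) 𝓘(ℂ, E) f (c.symm z) := hf _
    have h3 : MDifferentiableAt 𝓘(ℂ, E) 𝓘(ℂ, E) c (f (c.symm z)) :=
      ((contMDiffOn_of_mem_maximalAtlas hcm).contMDiffAt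
        (c.open_source.mem_nhds (hKs (hfU _ (hrB hz').2)))).mdifferentiableAt (by simp)
    have h4 := h3.comp z (h2.comp z h1)
    exact h4.differentiableAt.differentiableWithinAt
  have hball : ball (c p) r ∈ 𝓝 (c p) := ball_mem_nhds _ hr
  have key : Tendsto (fun i => fderiv ℂ (fun z => c (g i (c.symm z))) (c p)) u
      (𝓝 (fderiv ℂ (fun z => c (F (c.symm z))) (c p))) := by
    rw [Metric.tendsto_nhds]
    intro ε hε
    obtain ⟨δ, hδ, h2⟩ := Metric.uniformContinuousOn_iff.1 huc (ε * r / 4) (by positivity)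
    filter_upwards [hunif _ hBc δ hδ] with j hj
    have hdj := hdiff (g j) (hg j) (hgU j)
    have hdG := hdiff F hFm hFU
    have h3 : fderiv ℂ (fun z => c (g j (c.symm z))) (c p)
        - fderiv ℂ (fun z => c (F (c.symm z))) (c p) =
        fderiv ℂ (fun z => c (g j (c.symm z)) - c (F (c.symm z))) (c p) := by
      rw [fderiv_fun_sub (hdj.differentiableAt hball) (hdG.differentiableAt hball)]
    rw [dist_eq_norm, h3]
    have h4 := H661.cauchy_est (C := ε * r / 4) hr (hdj.sub hdG) (fun z hz => by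
      have hz' : z ∈ closedBall (c p) r := ball_subset_closedBall hz
      have h5 := hj (c.symm z) (mem_image_of_mem _ hz')
      have h6 := h2 _ (hgU j _ (hrB hz').2) _ (hFU _ (hrB hz').2) h5
      rw [dist_eq_norm] at h6
      exact h6.le)
    calc _ ≤ 2 * (ε * r / 4) / r := h4
      _ = ε / 2 := by field_simp; ring
      _ < ε := by linarith
  have h7 : ∀ i, (mfderiv 𝓘(ℂ, E) 𝓘(ℂ, E) (g i) p : E → E) v =
      fderiv ℂ (fun z => c (g i (c.symm z))) (c p) v := fun i => mfderiv_fix (hg i) (hp i) v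
  have h8 : (mfderiv 𝓘(ℂ, E) 𝓘(ℂ, E) F p : E → E) v =
      fderiv ℂ (fun z => c (F (c.symm z))) (c p) v := mfderiv_fix hFm hFp v
  rw [h8]
  refine Tendsto.congr (fun i => (h7 i).symm) ?_
  exact ((ContinuousLinearMap.apply ℂ E v).continuous.tendsto _).comp key

end lim

variable {E : Type*} [NormedAddCommGroup E] [NormedSpace ℂ E] [FiniteDimensional ℂ E]
  {M : Type*} [MetricSpace M] [ChartedSpace E M]
  [IsManifold 𝓘(ℂ, E) 1 M] [IsManifold 𝓘(ℝ, E) ∞ M]
  [RiemannianBundle (fun x : M => TangentSpace 𝓘(ℝ, E) x)]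
  [IsContMDiffRiemannianBundle 𝓘(ℝ, E) ∞ E (fun x : M => TangentSpace 𝓘(ℝ, E) x)]
  [IsRiemannianManifold 𝓘(ℝ, E) M]

/-- **Bounded families of holomorphic self-maps are equicontinuous** (positive bisectional
curvature). -/
theorem equi_of_bdd (hK : IsKahler E M) [CompleteSpace M] [NoncompactSpace M] [ConnectedSpace M]
    (hnn : ∀ x : M, NonnegBisectionalAt E x) (hpos : ∀ x : M, PosBisectionalAt E x)
    {G : Set (M → M)} (hG : ∀ g ∈ G, MDifferentiable 𝓘(ℂ, E) 𝓘(ℂ, E) g)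
    (hB : ∀ C : Set M, IsCompact C → ∃ C' : Set M, IsCompact C' ∧ ∀ g ∈ G, ∀ x ∈ C, g x ∈ C') :
    ∀ x₁ : M, ∀ ε > 0, ∃ U ∈ 𝓝 x₁, ∀ g ∈ G, ∀ x ∈ U, ∀ y ∈ U, dist (g x) (g y) < ε := by
  intro x₁ ε hε
  have hP : ProperSpace M := properSpace_riemannian E M
  have hPE : ProperSpace E := FiniteDimensional.proper ℂ E
  obtain ⟨x₀⟩ : Nonempty M := inferInstance
  obtain ⟨B, hBc, hd⟩ := exists_discs' (E := E) x₁
  obtain ⟨K, hKc, hBK⟩ := hB B hBc
  obtain ⟨c, hc, L₀, hL₀, hlev⟩ := H348.levi_strict_compact hK hnn hKc fun x _ => hpos x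
  obtain ⟨R, hR⟩ := hKc.isBounded.subset_closedBall x₀
  obtain ⟨q, hq⟩ := exists_far x₀ (R + L₀)
  have hlevK : ∀ x ∈ K, LeviBound (E := E) q x (-c) := by
    intro x hx
    refine hlev x hx q ?_
    have h1 : dist x x₀ ≤ R := hR hx
    have h2 := dist_triangle x₀ x q
    rw [dist_comm x₀ x] at h2
    linarith
  obtain ⟨t, ht, h⟩ := H89.equi hK hKc hc hlevK hε
  obtain ⟨U, hU, hd'⟩ := hd t ht
  refine ⟨U, hU, fun g hg x hx y hy => ?_⟩
  obtain ⟨γ, h1, h2, h3, z, hz, h4⟩ := hd' x hx y hy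
  have h5 := h (fun z => g (γ z)) (fun z hz => (hG g hg _).comp z (h1 z hz))
    (fun z hz => hBK g hg _ (h2 z hz)) z hz
  simp only [h3, h4] at h5
  rwa [dist_comm]

end Vale.Agent.P253.H836
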