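import Vale.Agent.P253.MathlibUsed
import Mathlib.Topology.MetricSpace.Sequences

/-!
P253: iterates of an (asymptotically) nonexpanding map of a proper metric space (Calka): if one
orbit does not tend to infinity, then all orbits are bounded.
-/

open Filter Topology Set Metric

namespace Vale.Agent.P253.H836

variable {M : Type*} [MetricSpace M]

/-- a limit point of an orbit is recurrent -/
theorem recurrent_of_subseq {f : M → M}
    (hw : ∀ C : Set M, IsCompact C → ∀ ε > 0, ∀ᶠ k : ℕ in atTop, ∀ x ∈ C, ∀ y ∈ C,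
      dist (f^[k] x) (f^[k] y) ≤ (1 + ε) * dist x y)
    {x y : M} {n : ℕ → ℕ} (hn : StrictMono n) (hy : Tendsto (fun k => f^[n k] x) atTop (𝓝 y)) :
    ∀ δ > 0, ∀ N : ℕ, ∃ q, N ≤ q ∧ dist (f^[q] y) y < δ := by
  intro δ hδ N
  have hC : IsCompact (insert y (range fun k => f^[n k] x)) := hy.isCompact_insert_range
  obtain ⟨K₀, hK₀⟩ := eventually_atTop.1 (hw _ hC 1 one_pos)
  obtain ⟨J, hJ⟩ := Metric.tendsto_atTop.1 hy (δ / 4) (by positivity)
  have hgrow : ∀ i, n J + i ≤ n (J + i) := by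
    intro i
    induction i with
    | zero => simp
    | succ i ih =>
      have h1 : n (J + i) < n (J + i + 1) := hn (Nat.lt_succ_self _)
      have h2 : J + (i + 1) = J + i + 1 := by ring
      rw [h2]
      omega
  set i := max N K₀ with hi
  refine ⟨n (J + i) - n J, ?_, ?_⟩
  · have h1 := hgrow i
    have h2 : N ≤ i := le_max_left _ _
    omega
  · set q := n (J + i) - n J with hq
    have h1 := hgrow i
    have h2 : K₀ ≤ i := le_max_right _ _
    have hqK : K₀ ≤ q := by omega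
    have hqe : q + n J = n (J + i) := by omega
    have h3 : f^[q] (f^[n J] x) = f^[n (J + i)] x := by
      rw [← Function.iterate_add_apply, hqe]
    have h4 := hK₀ q hqK y (mem_insert _ _) (f^[n J] x) (mem_insert_of_mem _ (mem_range_self J))
    have h5 := hJ J le_rfl
    have h6 := hJ (J + i) (Nat.le_add_right _ _)
    rw [h3] at h4
    have h7 := dist_triangle (f^[q] y) (f^[n (J + i)] x) y
    rw [dist_comm y] at h4
    norm_num at h4
    linarith

/-- the orbit of a recurrent point is bounded -/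
theorem bounded_of_recurrent [ProperSpace M] {f : M → M} (hf : Continuous f)
    (hw : ∀ C : Set M, IsCompact C → ∀ ε > 0, ∀ᶠ k : ℕ in atTop, ∀ x ∈ C, ∀ y ∈ C,
      dist (f^[k] x) (f^[k] y) ≤ (1 + ε) * dist x y)
    {y : M} (hy : ∀ δ > 0, ∀ N : ℕ, ∃ q, N ≤ q ∧ dist (f^[q] y) y < δ) :
    Bornology.IsBounded (range fun k : ℕ => f^[k] y) := by
  have hB : IsCompact (closedBall y 1) := isCompact_closedBall y 1
  obtain ⟨k₀, hk₀⟩ := eventually_atTop.1 (hw _ hB 1 one_pos)
  set T : Set M := {z | z ∈ closedBall y 1 ∧ ∃ m : ℕ, f^[m] y = z} with hT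
  have hTB : T ⊆ closedBall y 1 := fun z hz => hz.1
  have hr : ∀ z ∈ T, ∃ r : ℕ, k₀ + 1 ≤ r ∧ dist (f^[r] z) y < 1 / 2 := by
    rintro z ⟨-, m, rfl⟩
    obtain ⟨q, hq1, hq2⟩ := hy (1 / 2) (by norm_num) (m + k₀ + 1)
    refine ⟨q - m, by omega, ?_⟩
    rw [← Function.iterate_add_apply, show q - m + m = q by omega]
    exact hq2
  choose! r hr1 hr2 using hr
  obtain ⟨t, htT, htf, htc⟩ := Metric.finite_approx_of_totallyBounded
    (hB.totallyBounded.subset hTB) (1 / 4) (by norm_num)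
  obtain ⟨L, hL⟩ := (htf.image r).bddAbove
  have hL' : ∀ z ∈ t, r z ≤ L := fun z hz => hL (mem_image_of_mem r hz)
  -- return times
  have hret : ∀ m : ℕ, f^[m] y ∈ closedBall y 1 →
      ∃ l, 1 ≤ l ∧ l ≤ L ∧ f^[m + l] y ∈ closedBall y 1 := by
    intro m hm
    have h1 : f^[m] y ∈ T := ⟨hm, m, rfl⟩
    obtain ⟨z, hz, hmz⟩ := mem_iUnion₂.1 (htc h1)
    have hzT := htT hz
    refine ⟨r z, by have := hr1 z hzT; omega, hL' z hz, ?_⟩
    have h2 : f^[m + r z] y = f^[r z] (f^[m] y) := by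
      rw [← Function.iterate_add_apply, add_comm]
    rw [h2, mem_closedBall]
    have h3 := hk₀ (r z) (by have := hr1 z hzT; omega) (f^[m] y) hm z (hTB hzT)
    have h4 := hr2 z hzT
    have h5 : dist (f^[m] y) z < 1 / 4 := mem_ball.1 hmz
    have h6 := dist_triangle (f^[r z] (f^[m] y)) (f^[r z] z) y
    norm_num at h3
    linarith
  have hcov : ∀ m : ℕ, ∃ s, s ≤ m ∧ m ≤ s + L ∧ f^[s] y ∈ closedBall y 1 := by
    intro m
    induction m with
    | zero => exact ⟨0, le_rfl, Nat.zero_le _, by simp⟩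
    | succ m ih =>
      obtain ⟨s, hs1, hs2, hs3⟩ := ih
      rcases Nat.lt_or_ge m (s + L) with h1 | h1
      · exact ⟨s, by omega, by omega, hs3⟩
      · obtain ⟨l, hl1, hl2, hl3⟩ := hret s hs3
        exact ⟨s + l, by omega, by omega, hl3⟩
  have hcpt : IsCompact (⋃ j ∈ {j : ℕ | j ≤ L}, f^[j] '' closedBall y 1) :=
    (Set.finite_le_nat L).isCompact_biUnion fun j _ => hB.image (hf.iterate j)
  refine hcpt.isBounded.subset ?_
  rintro _ ⟨m, rfl⟩
  obtain ⟨s, hs1, hs2, hs3⟩ := hcov m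
  refine mem_iUnion₂.2 ⟨m - s, ?_, f^[s] y, hs3, ?_⟩
  · change m - s ≤ L
    omega
  · rw [← Function.iterate_add_apply, show m - s + s = m by omega]

/-- boundedness of the orbits does not depend on the point -/
theorem bounded_of_bounded {f : M → M}
    (hw : ∀ C : Set M, IsCompact C → ∀ ε > 0, ∀ᶠ k : ℕ in atTop, ∀ x ∈ C, ∀ y ∈ C,
      dist (f^[k] x) (f^[k] y) ≤ (1 + ε) * dist x y)
    {x : M} (hx : Bornology.IsBounded (range fun k : ℕ => f^[k] x)) (y : M) :
    Bornology.IsBounded (range fun k : ℕ => f^[k] y) := by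
  have hC : IsCompact ({x, y} : Set M) := (Set.toFinite _).isCompact
  obtain ⟨k₀, hk₀⟩ := eventually_atTop.1 (hw _ hC 1 one_pos)
  obtain ⟨R, hR⟩ := hx.subset_closedBall x
  have h1 : Bornology.IsBounded ((fun k : ℕ => f^[k] y) '' {k | k < k₀}) :=
    ((Set.finite_lt_nat k₀).image _).isBounded
  refine (h1.union (isBounded_closedBall (x := x) (r := R + 2 * dist y x))).subset ?_
  rintro _ ⟨k, rfl⟩
  rcases Nat.lt_or_ge k k₀ with h | h
  · exact Or.inl ⟨k, h, rfl⟩
  · refine Or.inr ?_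
    have h2 := hk₀ k h y (by simp) x (by simp)
    have h3 : dist (f^[k] x) x ≤ R := hR (mem_range_self k)
    have h4 := dist_triangle (f^[k] y) (f^[k] x) x
    rw [mem_closedBall]
    norm_num at h2
    linarith

/-- **Calka's theorem**, in the asymptotic form: if one orbit of an asymptotically nonexpanding map
of a proper metric space does not tend to infinity, then all orbits are bounded. -/
theorem bounded_of_not_tendsto [ProperSpace M] {f : M → M} (hf : Continuous f)
    (hw : ∀ C : Set M, IsCompact C → ∀ ε > 0, ∀ᶠ k : ℕ in atTop, ∀ x ∈ C, ∀ y ∈ C,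
      dist (f^[k] x) (f^[k] y) ≤ (1 + ε) * dist x y)
    {x : M} (hx : ¬ Tendsto (fun k : ℕ => f^[k] x) atTop (cocompact M)) (y : M) :
    Bornology.IsBounded (range fun k : ℕ => f^[k] y) := by
  rw [hasBasis_cocompact.tendsto_right_iff] at hx
  push Not at hx
  obtain ⟨K, hK, hfr⟩ := hx
  have hfr' : ∃ᶠ k : ℕ in atTop, f^[k] x ∈ K := by
    refine hfr.mono fun k hk => ?_
    simpa using hk
  obtain ⟨φ, hφ, hφK⟩ := extraction_of_frequently_atTop hfr'
  obtain ⟨z, -, ψ, hψ, hz⟩ := hK.tendsto_subseq (x := fun k => f^[φ k] x) hφK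
  have hrec := recurrent_of_subseq hw (n := φ ∘ ψ) (hφ.comp hψ) hz
  exact bounded_of_bounded hw (bounded_of_recurrent hf hw hrec) y

/-- the hypothesis holds for nonexpanding maps -/
theorem asymp_of_nonexp {f : M → M} (h : ∀ x y, dist (f x) (f y) ≤ dist x y) :
    ∀ C : Set M, IsCompact C → ∀ ε > 0, ∀ᶠ k : ℕ in atTop, ∀ x ∈ C, ∀ y ∈ C,
      dist (f^[k] x) (f^[k] y) ≤ (1 + ε) * dist x y := by
  intro C _ ε hε
  refine Eventually.of_forall fun k x _ y _ => ?_
  have h1 : dist (f^[k] x) (f^[k] y) ≤ dist x y := by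
    induction k with
    | zero => simp
    | succ k ih =>
      rw [Function.iterate_succ_apply', Function.iterate_succ_apply']
      exact (h _ _).trans ih
  nlinarith [dist_nonneg (x := x) (y := y)]

end Vale.Agent.P253.H836
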