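import Vale.Agent.P253.H89.ZZero
import Vale.Agent.P253.R2.H380.MaxPrinciple

/-!
P253, H836: on a Kähler manifold, a holomorphic vector field whose length has a local minimum at a
point of positive bisectional curvature vanishes at this point (observation of helper805).
-/

open scoped Manifold ContDiff Topology Bundle
open Set Metric Complex Filter Bundle IsManifold Manifold Module
  Vale.Agent.P253.Mfd Vale.Agent.P253.Mfd.LocalKahler Vale.Agent.P253.H595 Vale.Agent.P253.H22
  Vale.Agent.P253.H89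

set_option maxSynthPendingDepth 3
set_option linter.unusedSectionVars false

noncomputable section

namespace Vale.Agent.P253.H836

section loc

variable {E : Type*} [NormedAddCommGroup E] [NormedSpace ℂ E] [FiniteDimensional ℂ E]
  {G : E → E →L[ℝ] E →L[ℝ] ℝ} {U : Set E} {c : E → E} {z X : E}

/-- first derivative of the squared length along a line -/
theorem hasDerivAt_sq (h : LocalKahler G U) (hc : ContDiffOn ℂ ∞ c U) {y : ℝ → E} {t : ℝ}
    (hy : HasDerivAt y X t) (hz : y t ∈ U) :
    HasDerivAt (fun s : ℝ => G (y s) (c (y s)) (c (y s)))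
      (fderiv ℝ G (y t) X (c (y t)) (c (y t))
        + 2 * G (y t) (fderiv ℝ c (y t) X) (c (y t))) t := by
  have hcr : ContDiffOn ℝ ∞ c U := hc.restrict_scalars ℝ
  have hcd : HasFDerivAt c (fderiv ℝ c (y t)) (y t) :=
    ((hcr.contDiffAt (h.isOpen.mem_nhds hz)).differentiableAt (by simp)).hasFDerivAt
  have hG := (h.differentiableAt hz).hasFDerivAt
  have e1 := hG.comp_hasDerivAt t hy
  have e2 := hcd.comp_hasDerivAt t hy
  have e3 := (e1.clm_apply e2).clm_apply e2
  refine e3.congr_deriv ?_
  simp only [Function.comp_apply, add_apply]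
  rw [h.symm _ hz (c (y t))]
  ring

/-- second derivative of the squared length along a line -/
theorem hasDerivAt_sq2 (h : LocalKahler G U) (hc : ContDiffOn ℂ ∞ c U) {y : ℝ → E} {t : ℝ}
    (hy : HasDerivAt y X t) (hz : y t ∈ U) :
    HasDerivAt (fun s : ℝ => fderiv ℝ G (y s) X (c (y s)) (c (y s))
        + 2 * G (y s) (fderiv ℝ c (y s) X) (c (y s)))
      (fderiv ℝ (fderiv ℝ G) (y t) X X (c (y t)) (c (y t))
        + 4 * fderiv ℝ G (y t) X (fderiv ℝ c (y t) X) (c (y t))
        + 2 * G (y t) (fderiv ℝ (fderiv ℝ c) (y t) X X) (c (y t))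
        + 2 * G (y t) (fderiv ℝ c (y t) X) (fderiv ℝ c (y t) X)) t := by
  have hcr : ContDiffOn ℝ ∞ c U := hc.restrict_scalars ℝ
  have hcd : HasFDerivAt c (fderiv ℝ c (y t)) (y t) :=
    ((hcr.contDiffAt (h.isOpen.mem_nhds hz)).differentiableAt (by simp)).hasFDerivAt
  have hd : HasFDerivAt (fderiv ℝ c) (fderiv ℝ (fderiv ℝ c) (y t)) (y t) :=
    (((hcr.fderiv_of_isOpen h.isOpen (m := ∞) (by simp)).contDiffAt
      (h.isOpen.mem_nhds hz)).differentiableAt (by simp)).hasFDerivAt
  have hG1 := (h.differentiableAt hz).hasFDerivAt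
  have hG2 := (h.differentiableAt_fderiv hz).hasFDerivAt
  have e1 := hG1.comp_hasDerivAt t hy
  have e2 := hG2.comp_hasDerivAt t hy
  have e3 := hcd.comp_hasDerivAt t hy
  have e4 := hd.comp_hasDerivAt t hy
  have hX : HasDerivAt (fun _ : ℝ => X) 0 t := hasDerivAt_const t X
  have f1 := ((e2.clm_apply hX).clm_apply e3).clm_apply e3
  have f2 := ((e1.clm_apply (e4.clm_apply hX)).clm_apply e3).const_mul 2
  refine (f1.add f2).congr_deriv ?_
  simp only [Function.comp_apply, add_apply, map_zero, add_zero]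
  rw [h.fderiv_symm hz X (c (y t)) (fderiv ℝ c (y t) X),
    h.symm _ hz (fderiv ℝ c (y t) X) (fderiv ℝ c (y t) X)]
  ring

/-- at a local minimum of the squared length its second derivatives are nonnegative -/
theorem second_nonneg (h : LocalKahler G U) (hc : ContDiffOn ℂ ∞ c U) (hz : z ∈ U)
    (hmin : IsLocalMin (fun y => G y (c y) (c y)) z) (X : E) :
    0 ≤ fderiv ℝ (fderiv ℝ G) z X X (c z) (c z)
        + 4 * fderiv ℝ G z X (fderiv ℝ c z X) (c z)
        + 2 * G z (fderiv ℝ (fderiv ℝ c) z X X) (c z)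
        + 2 * G z (fderiv ℝ c z X) (fderiv ℝ c z X) := by
  set y : ℝ → E := fun s => z + s • X with hy
  have hyd : ∀ t, HasDerivAt y X t := fun t => by
    simpa [hy] using ((hasDerivAt_id t).smul_const X).const_add z
  have hy0 : y 0 = z := by simp [hy]
  have hyc : Tendsto y (𝓝 0) (𝓝 z) := by
    have := (hyd 0).continuousAt.tendsto
    rwa [hy0] at this
  set f : ℝ → ℝ := fun s => -(G (y s) (c (y s)) (c (y s))) with hf
  have hU : ∀ᶠ s in 𝓝 (0 : ℝ), y s ∈ U := hyc.eventually (h.isOpen.mem_nhds hz)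
  have hmax : IsLocalMax f 0 := by
    filter_upwards [hyc.eventually hmin] with s hs
    simp only [hf, hy0]
    exact neg_le_neg hs
  have hd1 : deriv f =ᶠ[𝓝 0] fun s => -(fderiv ℝ G (y s) X (c (y s)) (c (y s))
        + 2 * G (y s) (fderiv ℝ c (y s) X) (c (y s))) := by
    filter_upwards [hU] with s hs
    exact (hasDerivAt_sq h hc (hyd s) hs).neg.deriv
  have hz0 : y 0 ∈ U := by rwa [hy0]
  have hd2 := (hasDerivAt_sq2 h hc (hyd 0) hz0).fun_neg
  have h3 := R2.H380.deriv_deriv_nonpos_of_isLocalMax hmax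
    (hasDerivAt_sq h hc (hyd 0) hz0).neg.continuousAt
  rw [hd1.deriv_eq, hd2.deriv, hy0] at h3
  linarith only [h3]

/-- at a local minimum of the squared length its first derivatives vanish -/
theorem first_eq (h : LocalKahler G U) (hc : ContDiffOn ℂ ∞ c U) (hz : z ∈ U)
    (hmin : IsLocalMin (fun y => G y (c y) (c y)) z) (X : E) :
    G z (fderiv ℝ c z X + chris G z X (c z)) (c z) = 0 := by
  set y : ℝ → E := fun s => z + s • X with hy
  have hyd : ∀ t, HasDerivAt y X t := fun t => by
    simpa [hy] using ((hasDerivAt_id t).smul_const X).const_add z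
  have hy0 : y 0 = z := by simp [hy]
  have hyc : Tendsto y (𝓝 0) (𝓝 z) := by
    have := (hyd 0).continuousAt.tendsto
    rwa [hy0] at this
  have hmin' : IsLocalMin (fun s => G (y s) (c (y s)) (c (y s))) 0 := by
    filter_upwards [hyc.eventually hmin] with s hs
    simpa only [hy0] using hs
  have hz0 : y 0 ∈ U := by rwa [hy0]
  have h1 := hmin'.hasDerivAt_eq_zero (hasDerivAt_sq h hc (hyd 0) hz0)
  rw [hy0, h.fderiv_eq hz, h.symm z hz (c z)] at h1
  rw [map_add, add_apply]
  linarith only [h1]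

theorem zero_of_isLocalMin_local (h : LocalKahler G U) (hc : ContDiffOn ℂ ∞ c U) (hz : z ∈ U)
    (hR : ∀ X a, X ≠ 0 → a ≠ 0 → 0 < Rc G z X a)
    (hmin : IsLocalMin (fun y => G y (c y) (c y)) z) : c z = 0 := by
  by_contra hne
  have : FiniteDimensional ℝ E := FiniteDimensional.complexToReal E
  have hcd : DifferentiableOn ℂ c U := hc.differentiableOn (by simp)
  have hcr : ContDiffOn ℝ ∞ c U := hc.restrict_scalars ℝ
  set T : E →L[ℝ] E := fderiv ℝ c z + (chris G z).flip (c z) with hT
  have hTa : ∀ X, T X = fderiv ℝ c z X + chris G z X (c z) := fun X => by simp [hT]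
  have hinj : Function.Injective (T : E →ₗ[ℝ] E) := by
    rw [injective_iff_map_eq_zero]
    intro X hX
    by_contra hX0
    have hX' : fderiv ℝ c z X + chris G z X (c z) = 0 := by
      rw [← hTa]; exact hX
    have h1 := second_nonneg h hc hz hmin X
    have h2 := second_nonneg h hc hz hmin (I • X)
    have h3 := h.star hz X (c z) (fderiv ℝ c z X)
    have h4 : fderiv ℝ c z (I • X) = I • fderiv ℝ c z X :=
      fderiv_real_smul_I h.isOpen hcd hz X
    have h5 : fderiv ℝ (fderiv ℝ c) z (I • X) (I • X) = -fderiv ℝ (fderiv ℝ c) z X X := by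
      have hs : IsSymmSndFDerivAt ℝ c z :=
        (hcr.contDiffAt (h.isOpen.mem_nhds hz)).isSymmSndFDerivAt
          (by simpa using! (WithTop.coe_le_coe.2 le_top :
            ((2 : ℕ∞) : WithTop ℕ∞) ≤ ((⊤ : ℕ∞) : WithTop ℕ∞)))
      rw [fderiv2_real_smul_I h.isOpen hc hz, hs.eq, fderiv2_real_smul_I h.isOpen hc hz,
        smul_smul, I_mul_I, neg_one_smul]
    have h7 : ∀ w : E, G z (-w) (c z) = -(G z w (c z)) := by
      intro w
      rw [(G z).map_neg w]
      rfl
    rw [h4, h5, h.herm z hz, h7] at h2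
    rw [hX', map_zero] at h3
    have h6 := hR X (c z) hX0 hne
    linarith only [h1, h2, h3, h6]
  have hsurj : Function.Surjective (T : E →ₗ[ℝ] E) := LinearMap.injective_iff_surjective.1 hinj
  obtain ⟨X, hX⟩ := hsurj (c z)
  have h1 := first_eq h hc hz hmin X
  rw [← hTa] at h1
  have h2 : T X = c z := hX
  rw [h2] at h1
  exact absurd h1 (h.pos z hz _ hne).ne'

end loc

variable {E : Type*} [NormedAddCommGroup E] [NormedSpace ℂ E] [FiniteDimensional ℂ E]
  {M : Type*} [MetricSpace M] [ChartedSpace E M]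
  [IsManifold 𝓘(ℂ, E) 1 M] [IsManifold 𝓘(ℝ, E) ∞ M]
  [RiemannianBundle (fun x : M => TangentSpace 𝓘(ℝ, E) x)]
  [IsContMDiffRiemannianBundle 𝓘(ℝ, E) ∞ E (fun x : M => TangentSpace 𝓘(ℝ, E) x)]
  {Z : (x : M) → TangentSpace 𝓘(ℂ, E) x}

/-- A holomorphic vector field whose length has a local minimum at a point of positive bisectional
curvature vanishes at this point. -/
theorem zero_of_isLocalMin (hK : IsKahler E M) {x : M} (hpos : PosBisectionalAt E x)
    (hZ : IsHolField Z) (hmin : IsLocalMin (fnorm E Z) x) : fnorm E Z x = 0 := by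
  have he : chartAt E x ∈ maximalAtlas 𝓘(ℂ, E) 1 M := chart_mem_maximalAtlas x
  have hx : x ∈ (chartAt E x).source := mem_chart_source E x
  set e := chartAt E x with hedef
  have hz := e.map_source hx
  set c : E → E := fun y => comps (E := E) Z e (e.symm y) with hc
  have hLK := localKahler_chartG hK he
  have hcc : ContDiffOn ℂ ∞ c e.target :=
    contDiffOn_of_differentiableOn_complex e.open_target (hZ e he)
  have hsq : ∀ y ∈ e.target, chartG e y (c y) (c y) = fnorm E Z (e.symm y) ^ 2 := by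
    intro y hy
    rw [fnorm_sq_eq he (e.map_target hy), e.right_inv hy]
  have hcont : Tendsto e.symm (𝓝 (e x)) (𝓝 x) := by
    have := (e.continuousAt_symm hz).tendsto
    rwa [e.left_inv hx] at this
  have hmin' : IsLocalMin (fun y => chartG e y (c y) (c y)) (e x) := by
    filter_upwards [hcont.eventually hmin, e.open_target.mem_nhds hz] with y hy hyt
    simp only [hsq y hyt, hsq _ hz, e.left_inv hx]
    exact pow_le_pow_left₀ (norm_nonneg _) hy 2
  have h1 := zero_of_isLocalMin_local hLK hcc hz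
    (fun X a hX ha => Rc_pos_chartG hK he hz (by rwa [e.left_inv hx]) X a hX ha) hmin'
  have h2 := hsq _ hz
  rw [h1, e.left_inv hx, map_zero] at h2
  exact pow_eq_zero_iff two_ne_zero |>.1 h2.symm

/-- The same, with `Z x = 0`. -/
theorem eq_zero_of_isLocalMin (hK : IsKahler E M) {x : M} (hpos : PosBisectionalAt E x)
    (hZ : IsHolField Z) (hmin : IsLocalMin (fnorm E Z) x) : Z x = 0 :=
  norm_eq_zero.1 (zero_of_isLocalMin hK hpos hZ hmin)

end Vale.Agent.P253.H836
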