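import Mathlib

/-!
# P253, H836: integrated Lipschitz bound along minimizing chains (Lemma C of row 15174)

`X` proper with exact intermediate points, `f : X → Y` with local Lipschitz
constant at `x` at most `l (dist o x)`, on the closed ball of radius `r`.  Then
`dist (f o) (f x) ≤ ∫ s in 0..dist o x, l s` for `dist o x ≤ r`.
-/

open Set Metric MeasureTheory

namespace Vale.P253.H836

variable {X Y : Type*} [PseudoMetricSpace X] [PseudoMetricSpace Y]

/-- Local Lipschitz bound gives continuity on the ball. -/
theorem continuousOn_of_loc {f : X → Y} {o : X} {r : ℝ} {l : ℝ → ℝ}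
    (hloc : ∀ x, dist o x ≤ r → ∀ ε : ℝ, 0 < ε → ∃ δ : ℝ, 0 < δ ∧ ∀ y, dist o y ≤ r →
      dist x y < δ → dist (f x) (f y) ≤ (l (dist o x) + ε) * dist x y) :
    ContinuousOn f (closedBall o r) := by
  intro x hx
  rw [mem_closedBall, dist_comm] at hx
  obtain ⟨δ, hδ, h⟩ := hloc x hx 1 one_pos
  rw [Metric.continuousWithinAt_iff]
  intro ε hε
  set c : ℝ := |l (dist o x) + 1| + 1 with hc
  have hc0 : 0 < c := by positivity
  refine ⟨min δ (ε / c), lt_min hδ (div_pos hε hc0), ?_⟩
  intro y hy hyx
  rw [mem_closedBall, dist_comm] at hy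
  rw [dist_comm] at hyx
  have h1 := h y hy (lt_of_lt_of_le hyx (min_le_left _ _))
  have h2 : dist x y < ε / c := lt_of_lt_of_le hyx (min_le_right _ _)
  rw [dist_comm]
  have h3 : (l (dist o x) + 1) * dist x y ≤ c * dist x y :=
    mul_le_mul_of_nonneg_right (by have := le_abs_self (l (dist o x) + 1); linarith) dist_nonneg
  have h4 : c * dist x y < ε := by
    rw [lt_div_iff₀ hc0] at h2
    linarith [mul_comm c (dist x y)]
  linarith

/-- **Lemma C**. -/
theorem dist_le_integral [ProperSpace X]
    (hmid : ∀ x y : X, ∀ s : ℝ, 0 ≤ s → s ≤ dist x y →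
      ∃ z, dist x z = s ∧ dist z y = dist x y - s)
    {f : X → Y} {o : X} {r : ℝ} {l : ℝ → ℝ} (hl : Continuous l)
    (hloc : ∀ x, dist o x ≤ r → ∀ ε : ℝ, 0 < ε → ∃ δ : ℝ, 0 < δ ∧ ∀ y, dist o y ≤ r →
      dist x y < δ → dist (f x) (f y) ≤ (l (dist o x) + ε) * dist x y)
    {x : X} (hx : dist o x ≤ r) :
    dist (f o) (f x) ≤ ∫ s in (0 : ℝ)..dist o x, l s := by
  classical
  have hfc := continuousOn_of_loc hloc
  set d := dist o x with hd
  have hd0 : 0 ≤ d := dist_nonneg
  have key : ∀ ε : ℝ, 0 < ε → dist (f o) (f x) ≤ (∫ s in (0 : ℝ)..d, l s) + ε * d := by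
    intro ε hε
    -- primitive
    have hint : ∀ a b : ℝ, IntervalIntegrable l volume a b := fun a b => hl.intervalIntegrable a b
    have hprim : Continuous fun s : ℝ => ∫ u in (0 : ℝ)..s, l u :=
      intervalIntegral.continuous_primitive hint 0
    set T : Set X := {z | z ∈ closedBall o d ∧ dist o z + dist z x = d ∧
      dist (f o) (f z) ≤ (∫ u in (0 : ℝ)..dist o z, l u) + ε * dist o z} with hT
    have hTclosed : IsCompact T := by
      have hsub : ContinuousOn f (closedBall o d) := hfc.mono (closedBall_subset_closedBall hx)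
      have h1 : IsClosed T := by
        have e1 : T = closedBall o d ∩ {z | dist o z + dist z x = d} ∩
            (closedBall o d ∩ (fun z => dist (f o) (f z)
              - ((∫ u in (0 : ℝ)..dist o z, l u) + ε * dist o z)) ⁻¹' Iic 0) := by
          ext z
          simp only [hT, mem_ofPred_eq, mem_inter_iff, mem_preimage, mem_Iic, sub_nonpos]
          tauto
        rw [e1]
        refine (isClosed_closedBall.inter
          (isClosed_eq (by fun_prop) continuous_const)).inter ?_
        refine ContinuousOn.preimage_isClosed_of_isClosed ?_ isClosed_closedBall isClosed_Iic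
        refine (continuous_dist.comp_continuousOn (continuousOn_const.prodMk hsub)).sub ?_
        refine Continuous.continuousOn ?_
        exact (hprim.comp (by fun_prop)).add (by fun_prop)
      exact (isCompact_closedBall o d).of_isClosed_subset h1 fun z hz => hz.1
    set S : Set ℝ := (fun z => dist o z) '' T with hS
    have hSc : IsClosed S := (hTclosed.image (by fun_prop)).isClosed
    have hoT : o ∈ T := by
      refine ⟨mem_closedBall_self hd0, ?_, ?_⟩
      · simp [hd]
      · simp
    have hSsub : Icc (0 : ℝ) d ⊆ S := by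
      refine IsClosed.Icc_subset_of_forall_exists_gt (hSc.inter isClosed_Icc) ⟨o, hoT, by simp⟩ ?_
      rintro s ⟨⟨z, hzT, hzs⟩, hs0, hsd⟩ y hy
      have hzs : dist o z = s := hzs
      obtain ⟨hzb, hz2, hz3⟩ := hzT
      rw [mem_Ioi] at hy
      have hzr : dist o z ≤ r := by rw [hzs]; linarith
      obtain ⟨δ, hδ, hδ'⟩ := hloc z hzr (ε / 2) (by positivity)
      -- continuity of l at s
      obtain ⟨η, hη, hη'⟩ := Metric.continuous_iff.1 hl s (ε / 2) (by positivity)
      set u : ℝ := min (min y d) (s + min (δ / 2) (η / 2)) with hu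
      have hsu : s < u := by
        refine lt_min (lt_min hy hsd) ?_
        have : 0 < min (δ / 2) (η / 2) := lt_min (by positivity) (by positivity)
        linarith
      have huy : u ≤ y := (min_le_left _ _).trans (min_le_left _ _)
      have hud : u ≤ d := (min_le_left _ _).trans (min_le_right _ _)
      have hu1 : u ≤ s + δ / 2 :=
        (min_le_right _ _).trans (by gcongr; exact min_le_left _ _)
      have hu2 : u ≤ s + η / 2 :=
        (min_le_right _ _).trans (by gcongr; exact min_le_right _ _)
      have hzx : dist z x = d - s := by linarith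
      obtain ⟨z', hz'1, hz'2⟩ := hmid z x (u - s) (by linarith) (by rw [hzx]; linarith)
      have hoz' : dist o z' = u := by
        apply le_antisymm
        · have := dist_triangle o z z'
          linarith
        · have := dist_triangle o z' x
          linarith
      have hz'r : dist o z' ≤ r := by rw [hoz']; linarith
      have hstep := hδ' z' hz'r (by rw [hz'1]; linarith)
      rw [hzs, hz'1] at hstep
      have hI : (l s - ε / 2) * (u - s) ≤ ∫ v in s..u, l v := by
        have h1 : ∫ v in s..u, (l s - ε / 2) ≤ ∫ v in s..u, l v := by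
          refine intervalIntegral.integral_mono_on hsu.le (by simp) (hint _ _) ?_
          intro v hv
          have h2 : dist v s < η := by
            rw [Real.dist_eq, abs_of_nonneg (by linarith [hv.1])]
            linarith [hv.2]
          have h3 := hη' v h2
          rw [Real.dist_eq, abs_lt] at h3
          linarith [h3.1]
        rw [intervalIntegral.integral_const, smul_eq_mul] at h1
        linarith [mul_comm (l s - ε / 2) (u - s)]
      have hadd : (∫ v in (0 : ℝ)..s, l v) + ∫ v in s..u, l v = ∫ v in (0 : ℝ)..u, l v :=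
        intervalIntegral.integral_add_adjacent_intervals (hint _ _) (hint _ _)
      refine ⟨u, ⟨z', ⟨?_, ?_, ?_⟩, hoz'⟩, hsu, huy⟩
      · rw [mem_closedBall, dist_comm, hoz']; exact hud
      · rw [hoz', hz'2, hzx]; ring
      · rw [hoz']
        have h5 := dist_triangle (f o) (f z) (f z')
        rw [hzs] at hz3
        nlinarith [h5, hz3, hstep, hI, hadd]
    obtain ⟨z, hzT, hzd⟩ := hSsub ⟨hd0, le_rfl⟩
    have hzd : dist o z = d := hzd
    obtain ⟨hz1, hz2, hz3⟩ := hzT
    have hzx : dist z x = 0 := by linarith
    obtain ⟨δ, hδ, hδ'⟩ := hloc z (by rw [hzd]; exact hx) 1 one_pos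
    have h6 := hδ' x hx (by rw [hzx]; exact hδ)
    rw [hzx, mul_zero] at h6
    rw [hzd] at hz3
    have h7 := dist_triangle (f o) (f z) (f x)
    linarith
  refine le_of_forall_pos_le_add fun ε hε => ?_
  have h := key (ε / (d + 1)) (by positivity)
  have h8 : ε / (d + 1) * d ≤ ε := by
    rw [div_mul_eq_mul_div, div_le_iff₀ (by positivity)]
    nlinarith
  linarith

end Vale.P253.H836
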