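import Vale.Agent.P253.H836.Calka

/-!
P253: orbits of a nonexpanding semigroup of a proper metric space: if one orbit does not tend to
infinity, then all orbits are bounded.
-/

open Filter Topology Set Metric

namespace Vale.Agent.P253.H836

variable {M : Type*} [MetricSpace M]

/-- **Calka's theorem for semigroups** -/
theorem bounded_semi [ProperSpace M] {ρ : ℝ → M → M} (h0 : ∀ x, ρ 0 x = x)
    (hadd : ∀ s t x, 0 ≤ s → 0 ≤ t → ρ (s + t) x = ρ s (ρ t x))
    (hcont : ContinuousOn (fun q : ℝ × M => ρ q.1 q.2) {q | 0 ≤ q.1})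
    (hlip : ∀ t, 0 ≤ t → ∀ x y, dist (ρ t x) (ρ t y) ≤ dist x y) {x : M}
    (hx : ¬ Tendsto (fun t : ℝ => ρ t x) atTop (cocompact M)) (y : M) :
    Bornology.IsBounded ((fun t => ρ t y) '' Ici 0) := by
  -- the map at time one
  set f : M → M := ρ 1 with hf
  have hlf : ∀ a b, dist (f a) (f b) ≤ dist a b := hlip 1 zero_le_one
  have hfc : Continuous f :=
    (LipschitzWith.mk_one hlf).continuous
  have hit : ∀ (n : ℕ) (a : M), f^[n] a = ρ n a := by
    intro n a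
    induction n with
    | zero => simp [h0]
    | succ n ih =>
      rw [Function.iterate_succ_apply', ih, hf, ← hadd 1 n a zero_le_one (Nat.cast_nonneg n)]
      congr 1
      push_cast
      ring
  -- compact images
  have himg : ∀ K : Set M, IsCompact K →
      IsCompact ((fun q : ℝ × M => ρ q.1 q.2) '' (Icc (0 : ℝ) 1 ×ˢ K)) := by
    intro K hK
    refine (isCompact_Icc.prod hK).image_of_continuousOn (hcont.mono ?_)
    rintro ⟨t, z⟩ ⟨ht, -⟩
    exact ht.1
  have hx' : ¬ Tendsto (fun n : ℕ => f^[n] x) atTop (cocompact M) := by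
    intro hT
    apply hx
    rw [hasBasis_cocompact.tendsto_right_iff] at hT ⊢
    intro K hK
    have h1 := hT _ (himg K hK)
    obtain ⟨N, hN⟩ := eventually_atTop.1 h1
    filter_upwards [eventually_ge_atTop (N : ℝ)] with t ht
    intro htK
    have ht0 : 0 ≤ t := (Nat.cast_nonneg N).trans ht
    have hfl : (⌊t⌋₊ : ℝ) ≤ t := Nat.floor_le ht0
    have hfl' : t < ⌊t⌋₊ + 1 := Nat.lt_floor_add_one t
    have hNf : N ≤ ⌊t⌋₊ + 1 := by
      have : N ≤ ⌊t⌋₊ := Nat.le_floor ht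
      omega
    apply hN _ hNf
    refine ⟨(((⌊t⌋₊ + 1 : ℕ) : ℝ) - t, ρ t x), ⟨⟨?_, ?_⟩, htK⟩, ?_⟩
    · push_cast
      linarith
    · push_cast
      linarith
    · change ρ (((⌊t⌋₊ + 1 : ℕ) : ℝ) - t) (ρ t x) = f^[⌊t⌋₊ + 1] x
      rw [hit, ← hadd _ t x (by push_cast; linarith) ht0, sub_add_cancel]
  have hb := bounded_of_not_tendsto hfc (asymp_of_nonexp hlf) hx' y
  obtain ⟨R, hR⟩ := hb.subset_closedBall y
  refine (himg _ (isCompact_closedBall y R)).isBounded.subset ?_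
  rintro _ ⟨t, ht, rfl⟩
  have ht0 : 0 ≤ t := ht
  have hfl : (⌊t⌋₊ : ℝ) ≤ t := Nat.floor_le ht0
  have hfl' : t < ⌊t⌋₊ + 1 := Nat.lt_floor_add_one t
  refine ⟨(t - ⌊t⌋₊, f^[⌊t⌋₊] y), ⟨⟨by linarith, by linarith⟩, hR (mem_range_self _)⟩, ?_⟩
  change ρ (t - ⌊t⌋₊) (f^[⌊t⌋₊] y) = ρ t y
  rw [hit, ← hadd _ _ y (by linarith) (Nat.cast_nonneg _), sub_add_cancel]

end Vale.Agent.P253.H836
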