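import Vale.Agent.P253.MathlibUsed

/-!
P253: a lower bound for the decay of strictly superharmonic functions on a disc, in terms of four
point sums.
-/

open Set Metric Filter Topology Complex

noncomputable section

namespace Vale.Agent.P253.H836

/-- the four point sum -/
def sum4 (G : ℂ → ℝ) (z : ℂ) (r : ℝ) : ℝ := ∑ k : Fin 4, G (z + (r : ℂ) * I ^ (k : ℕ))

theorem sum4_eq (G : ℂ → ℝ) (z : ℂ) (r : ℝ) :
    sum4 G z r = G (z + r) + G (z + r * I) + G (z - r) + G (z - r * I) := by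
  have h3 : (I : ℂ) ^ 3 = -I := by rw [pow_succ, I_sq]; ring
  simp only [sum4, Fin.sum_univ_four, Fin.val_zero, Fin.val_one, Fin.val_two, pow_zero, pow_one,
    I_sq, show ((3 : Fin 4) : ℕ) = 3 from rfl, h3, mul_one, mul_neg, ← sub_eq_add_neg]

theorem norm_mul_I_pow (r : ℝ) (k : ℕ) : ‖(r : ℂ) * I ^ k‖ = |r| := by
  simp

/-- **minimum principle** -/
theorem min_principle {G : ℂ → ℝ} {R : ℝ} (hR : 0 < R) (hc : ContinuousOn G (closedBall 0 R))
    (hG : ∀ z ∈ ball (0:ℂ) R, ∀ η > 0, ∀ᶠ r in 𝓝[>] (0:ℝ), sum4 G z r ≤ 4 * G z + η * r ^ 2) :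
    ∃ w : ℂ, ‖w‖ = R ∧ G w ≤ G 0 := by
  by_contra hcon
  push Not at hcon
  have hsne : (sphere (0:ℂ) R).Nonempty := NormedSpace.sphere_nonempty.2 hR.le
  obtain ⟨w0, hw0, hmin⟩ := (isCompact_sphere (0:ℂ) R).exists_isMinOn hsne
    (hc.mono sphere_subset_closedBall)
  have hw0R : ‖w0‖ = R := by simpa using hw0
  have h1 := hcon w0 hw0R
  set ε : ℝ := (G w0 - G 0) / (2 * R ^ 2) with hε
  have hε0 : 0 < ε := by
    have : 0 < G w0 - G 0 := by linarith
    positivity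
  have hεR : ε * R ^ 2 = (G w0 - G 0) / 2 := by
    rw [hε]
    field_simp
  have hc' : ContinuousOn (fun z : ℂ => G z - ε * ‖z‖ ^ 2) (closedBall 0 R) :=
    hc.sub (by fun_prop)
  obtain ⟨z, hz, hzmin⟩ := (isCompact_closedBall (0:ℂ) R).exists_isMinOn
    ⟨0, mem_closedBall_self hR.le⟩ hc'
  have hz0 : G z - ε * ‖z‖ ^ 2 ≤ G 0 := by
    have := hzmin (mem_closedBall_self hR.le)
    simpa using this
  have hzR : ‖z‖ < R := by
    rcases (mem_closedBall_zero_iff.1 hz).eq_or_lt with h2 | h2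
    · exfalso
      have h3 : G w0 ≤ G z := hmin (by simpa using h2)
      rw [h2] at hz0
      linarith
    · exact h2
  have h2 := hG z (by simpa using hzR) ε hε0
  have h3 : ∀ᶠ r in 𝓝[>] (0:ℝ), r < R - ‖z‖ :=
    (Ioo_mem_nhdsGT (show (0:ℝ) < R - ‖z‖ by linarith)) |> fun h => by
      filter_upwards [h] with r hr using hr.2
  have h4 : ∀ᶠ r in 𝓝[>] (0:ℝ), 0 < r := self_mem_nhdsWithin
  obtain ⟨r, ⟨hr1, hr2⟩, hr0⟩ := ((h2.and h3).and h4).exists
  have h5 : ∀ k : Fin 4, G z - ε * ‖z‖ ^ 2 ≤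
      G (z + (r : ℂ) * I ^ (k : ℕ)) - ε * ‖z + (r : ℂ) * I ^ (k : ℕ)‖ ^ 2 := by
    intro k
    refine hzmin (mem_closedBall_zero_iff.2 ?_)
    refine (norm_add_le _ _).trans ?_
    rw [norm_mul_I_pow, abs_of_pos hr0]
    linarith
  have h6 := Finset.sum_le_sum fun k (_ : k ∈ (Finset.univ : Finset (Fin 4))) => h5 k
  rw [Finset.sum_sub_distrib, Finset.sum_sub_distrib, Finset.sum_const, Finset.sum_const,
    Finset.card_univ, Fintype.card_fin, ← Finset.mul_sum] at h6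
  have h7 : ∑ k : Fin 4, ‖z + (r : ℂ) * I ^ (k : ℕ)‖ ^ 2 = 4 * ‖z‖ ^ 2 + 4 * r ^ 2 := by
    have := sum4_eq (fun z => ‖z‖ ^ 2) z r
    rw [sum4] at this
    rw [this]
    simp only [← normSq_eq_norm_sq, normSq_apply, add_re, add_im, sub_re, sub_im, mul_re, mul_im,
      ofReal_re, ofReal_im, I_re, I_im]
    ring
  rw [h7] at h6
  have h8 : ∑ k : Fin 4, G (z + (r : ℂ) * I ^ (k : ℕ)) ≤ 4 * G z + ε * r ^ 2 := hr1
  simp only [nsmul_eq_mul, Nat.cast_ofNat] at h6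
  have h9 : 0 < ε * r ^ 2 := by positivity
  linarith

/-- the profile of the barrier -/
def pt (τ : ℝ) : ℝ := if τ ≤ 1 then τ - 1 else Real.log τ

theorem pt_le_sub {τ : ℝ} : pt τ ≤ τ - 1 := by
  unfold pt
  split_ifs with h
  · exact le_rfl
  · exact Real.log_le_sub_one_of_pos (by linarith)

theorem pt_eq_sub {τ : ℝ} (h : τ ≤ 1) : pt τ = τ - 1 := if_pos h

theorem pt_eq_log {τ : ℝ} (h : 1 < τ) : pt τ = Real.log τ := if_neg (not_le.2 h)

theorem pt_le_log {τ T : ℝ} (hT : 1 ≤ T) (h : τ ≤ T) : pt τ ≤ Real.log T := by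
  unfold pt
  split_ifs with h1
  · have := Real.log_nonneg hT
    linarith
  · exact Real.log_le_log (by linarith) h

theorem continuous_pt : Continuous pt := by
  have h1 : pt = fun τ : ℝ => min (τ - 1) 0 + Real.log (max τ 1) := by
    funext τ
    unfold pt
    split_ifs with h
    · rw [min_eq_left (by linarith), max_eq_right h, Real.log_one, add_zero]
    · push Not at h
      rw [min_eq_right (by linarith), max_eq_left h.le, zero_add]
  rw [h1]
  refine (by fun_prop : Continuous fun τ : ℝ => min (τ - 1) 0).add ?_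
  refine Continuous.log (by fun_prop) fun τ => ?_
  have := le_max_right τ 1
  linarith

/-- the barrier around `z₁` of radius `s` -/
def bar (z₁ : ℂ) (s : ℝ) (z : ℂ) : ℝ := pt (‖z - z₁‖ ^ 2 / s ^ 2)

theorem continuous_bar (z₁ : ℂ) (s : ℝ) : Continuous (bar z₁ s) := by
  unfold bar
  exact continuous_pt.comp (by fun_prop)

theorem bar_inner {z₁ z : ℂ} {s : ℝ} (hs : 0 < s) (hz : ‖z - z₁‖ ≤ s) (r : ℝ) :
    sum4 (bar z₁ s) z r ≤ 4 * bar z₁ s z + 4 / s ^ 2 * r ^ 2 := by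
  have h1 : bar z₁ s z = ‖z - z₁‖ ^ 2 / s ^ 2 - 1 := by
    refine pt_eq_sub ?_
    rw [div_le_one (by positivity)]
    exact pow_le_pow_left₀ (norm_nonneg _) hz 2
  have h2 : sum4 (bar z₁ s) z r ≤ sum4 (fun w => ‖w - z₁‖ ^ 2 / s ^ 2 - 1) z r :=
    Finset.sum_le_sum fun k _ => pt_le_sub
  refine h2.trans (le_of_eq ?_)
  rw [h1, sum4_eq]
  simp only [← normSq_eq_norm_sq, normSq_apply, add_re, add_im, sub_re, sub_im, mul_re, mul_im,
    ofReal_re, ofReal_im, I_re, I_im]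
  ring

theorem bar_outer {z₁ z : ℂ} {s : ℝ} (hs : 0 < s) (hz : s < ‖z - z₁‖) {η : ℝ} (hη : 0 < η) :
    ∀ᶠ r in 𝓝[>] (0:ℝ), sum4 (bar z₁ s) z r ≤ 4 * bar z₁ s z + η * r ^ 2 := by
  set w : ℂ := z - z₁ with hw
  set n : ℝ := ‖w‖ with hn
  have hn0 : 0 < n := hs.trans hz
  have h1 : ∀ᶠ r in 𝓝[>] (0:ℝ), r < n - s := by
    filter_upwards [Ioo_mem_nhdsGT (show (0:ℝ) < n - s by linarith)] with r hr using hr.2
  have h2 : ∀ᶠ r in 𝓝[>] (0:ℝ), 0 < r := self_mem_nhdsWithin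
  have h3 : ∀ᶠ r in 𝓝[>] (0:ℝ), 2 * r ^ 2 / n ^ 4 < η := by
    have hc : Tendsto (fun r : ℝ => 2 * r ^ 2 / n ^ 4) (𝓝[>] (0:ℝ)) (𝓝 0) := by
      have : ContinuousAt (fun r : ℝ => 2 * r ^ 2 / n ^ 4) 0 := by fun_prop
      have h4 := this.tendsto.mono_left (nhdsWithin_le_nhds (s := Ioi (0:ℝ)))
      simpa using h4
    exact hc.eventually_lt_const hη
  filter_upwards [h1, h2, h3] with r hr1 hr0 hr3
  have hb : bar z₁ s z = Real.log (n ^ 2 / s ^ 2) := by
    refine pt_eq_log ?_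
    rw [one_lt_div (by positivity)]
    exact pow_lt_pow_left₀ hz hs.le two_ne_zero
  have hk : ∀ k : Fin 4, s < ‖w + (r : ℂ) * I ^ (k : ℕ)‖ := by
    intro k
    have h4 := norm_sub_norm_le w (-((r : ℂ) * I ^ (k : ℕ)))
    rw [norm_neg, norm_mul_I_pow, abs_of_pos hr0, sub_neg_eq_add] at h4
    linarith
  have hbk : ∀ k : Fin 4, bar z₁ s (z + (r : ℂ) * I ^ (k : ℕ)) =
      Real.log (‖w + (r : ℂ) * I ^ (k : ℕ)‖ ^ 2 / s ^ 2) := by
    intro k
    have h4 : z + (r : ℂ) * I ^ (k : ℕ) - z₁ = w + (r : ℂ) * I ^ (k : ℕ) := by rw [hw]; ring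
    unfold bar
    rw [h4]
    refine pt_eq_log ?_
    rw [one_lt_div (by positivity)]
    exact pow_lt_pow_left₀ (hk k) hs.le two_ne_zero
  have hsum : sum4 (bar z₁ s) z r =
      Real.log (∏ k : Fin 4, (‖w + (r : ℂ) * I ^ (k : ℕ)‖ ^ 2 / s ^ 2)) := by
    rw [Real.log_prod (fun k _ => by
      have := hs.trans (hk k)
      positivity)]
    exact Finset.sum_congr rfl fun k _ => hbk k
  have hprod : ∏ k : Fin 4, (‖w + (r : ℂ) * I ^ (k : ℕ)‖ ^ 2 / s ^ 2) =
      ‖w ^ 4 - (r : ℂ) ^ 4‖ ^ 2 / s ^ 8 := by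
    have h3 : (I : ℂ) ^ 3 = -I := by rw [pow_succ, I_sq]; ring
    have h4 : w ^ 4 - (r : ℂ) ^ 4 = (w + r) * (w + r * I) * (w - r) * (w - r * I) := by
      have h5 : (w + r * I) * (w - r * I) = w ^ 2 + r ^ 2 := by
        have := I_sq
        linear_combination (-(r : ℂ) ^ 2) * this
      linear_combination -(w + r) * (w - r) * h5
    rw [Finset.prod_div_distrib, Finset.prod_const, Finset.card_univ, Fintype.card_fin,
      Fin.prod_univ_four, h4, norm_mul, norm_mul, norm_mul]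
    simp only [Fin.val_zero, Fin.val_one, Fin.val_two, pow_zero, pow_one,
      I_sq, show ((3 : Fin 4) : ℕ) = 3 from rfl, h3, mul_one, mul_neg, ← sub_eq_add_neg]
    ring
  have h4 : ‖w ^ 4 - (r : ℂ) ^ 4‖ ≤ n ^ 4 + r ^ 4 := by
    refine (norm_sub_le _ _).trans (le_of_eq ?_)
    rw [norm_pow, norm_pow, norm_real, Real.norm_eq_abs, abs_of_pos hr0]
  have hpos : 0 < ‖w ^ 4 - (r : ℂ) ^ 4‖ := by
    rw [norm_pos_iff, sub_ne_zero]
    intro h5
    have h6 := congrArg norm h5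
    rw [norm_pow, norm_pow, norm_real, Real.norm_eq_abs, abs_of_pos hr0] at h6
    have h7 : r < n := by linarith
    have h8 := pow_lt_pow_left₀ h7 hr0.le (n := 4) (by norm_num)
    rw [← h6] at h8
    exact lt_irrefl _ h8
  rw [hsum, hprod, hb]
  have h5 : Real.log (‖w ^ 4 - (r : ℂ) ^ 4‖ ^ 2 / s ^ 8) ≤
      Real.log ((n ^ 4 * (1 + r ^ 4 / n ^ 4)) ^ 2 / s ^ 8) := by
    refine Real.log_le_log (by positivity) ?_
    have h6 : n ^ 4 * (1 + r ^ 4 / n ^ 4) = n ^ 4 + r ^ 4 := by field_simp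
    rw [h6]
    gcongr
  refine h5.trans ?_
  have h6 : (n ^ 4 * (1 + r ^ 4 / n ^ 4)) ^ 2 / s ^ 8 =
      (n ^ 2 / s ^ 2) ^ 4 * (1 + r ^ 4 / n ^ 4) ^ 2 := by
    field_simp
  rw [h6, Real.log_mul (by positivity) (by positivity), Real.log_pow, Real.log_pow]
  have h7 : Real.log (1 + r ^ 4 / n ^ 4) ≤ r ^ 4 / n ^ 4 := by
    have := Real.log_le_sub_one_of_pos (show 0 < 1 + r ^ 4 / n ^ 4 by positivity)
    linarith
  have h8 : 2 * (r ^ 4 / n ^ 4) ≤ η * r ^ 2 := by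
    have h9 : 2 * (r ^ 4 / n ^ 4) = (2 * r ^ 2 / n ^ 4) * r ^ 2 := by ring
    rw [h9]
    exact mul_le_mul_of_nonneg_right hr3.le (sq_nonneg r)
  push_cast
  linarith

/-- **the core estimate**: a function which is superharmonic, with Laplacian at most `-B` on a
small disc near the centre, is smaller somewhere on the boundary than at the centre -/
theorem core {D : ℂ → ℝ} {R s B ε : ℝ} {z₁ : ℂ} (hR : 0 < R) (hs : 0 < s) (hsR : s ≤ R / 3)
    (hz₁ : ‖z₁‖ ≤ R / 3) (hc : ContinuousOn D (closedBall 0 R)) (hB : 0 ≤ B)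
    (hD : ∀ z ∈ ball (0:ℂ) R, ∀ η > 0, ∀ᶠ r in 𝓝[>] (0:ℝ), sum4 D z r ≤ 4 * D z + η * r ^ 2)
    (hDB : ∀ z, ‖z - z₁‖ ≤ s → ∀ η > 0, ∀ᶠ r in 𝓝[>] (0:ℝ),
      sum4 D z r ≤ 4 * D z + (-B + η) * r ^ 2)
    (hε : ∀ z, ‖z‖ = R → D 0 ≤ D z + ε) : B * s ^ 2 / 4 * Real.log 4 ≤ ε := by
  set c : ℝ := B * s ^ 2 / 4 with hcd
  have hc0 : 0 ≤ c := by positivity
  have hsum : ∀ z r, sum4 (fun z => D z + c * bar z₁ s z) z r =
      sum4 D z r + c * sum4 (bar z₁ s) z r := by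
    intro z r
    rw [sum4, Finset.sum_add_distrib, ← Finset.mul_sum]
    rfl
  obtain ⟨w, hw, hle⟩ := min_principle (G := fun z => D z + c * bar z₁ s z) hR
    (hc.add ((continuous_bar z₁ s).continuousOn.const_mul c |> fun h => by simpa using h))
    (fun z hz η hη => by
      by_cases hzs : ‖z - z₁‖ ≤ s
      · filter_upwards [hDB z hzs η hη] with r hr
        rw [hsum]
        have h1 := mul_le_mul_of_nonneg_left (bar_inner hs hzs r) hc0
        have h2 : c * (4 / s ^ 2 * r ^ 2) = B * r ^ 2 := by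
          rw [hcd]; field_simp
        nlinarith only [hr, h1, h2]
      · push Not at hzs
        filter_upwards [hD z hz (η / 2) (by positivity),
          bar_outer hs hzs (η := η / (2 * (c + 1))) (by positivity)] with r hr1 hr2
        rw [hsum]
        have h1 := mul_le_mul_of_nonneg_left hr2 hc0
        have h2 : c * (η / (2 * (c + 1))) ≤ η / 2 := by
          rw [mul_div_assoc', div_le_div_iff₀ (by positivity) (by norm_num)]
          nlinarith only [hη, hc0, mul_nonneg hc0 hη.le]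
        have h3 := mul_le_mul_of_nonneg_right h2 (sq_nonneg r)
        nlinarith only [hr1, h1, h3])
  have h1 := hε w hw
  have h2 : 2 * R / 3 ≤ ‖w - z₁‖ := by
    have := norm_sub_norm_le w z₁
    linarith
  have h3 : s < ‖w - z₁‖ := by linarith
  have h4 : bar z₁ s w = Real.log (‖w - z₁‖ ^ 2 / s ^ 2) := by
    refine pt_eq_log ?_
    rw [one_lt_div (by positivity)]
    exact pow_lt_pow_left₀ h3 hs.le two_ne_zero
  have h5 : Real.log ((2 * R / 3) ^ 2 / s ^ 2) ≤ bar z₁ s w := by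
    rw [h4]
    refine Real.log_le_log (by positivity) ?_
    gcongr
  have h6 : bar z₁ s 0 ≤ Real.log ((R / 3) ^ 2 / s ^ 2) := by
    refine pt_le_log ?_ ?_
    · rw [one_le_div (by positivity)]
      exact pow_le_pow_left₀ hs.le hsR 2
    · rw [zero_sub, norm_neg]
      gcongr
  have h7 : (2 * R / 3) ^ 2 / s ^ 2 = 4 * ((R / 3) ^ 2 / s ^ 2) := by ring
  rw [h7, Real.log_mul (by norm_num) (by positivity)] at h5
  have h8 : c * Real.log 4 ≤ c * (bar z₁ s w - bar z₁ s 0) :=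
    mul_le_mul_of_nonneg_left (by linarith) hc0
  nlinarith only [h1, hle, h8]

end Vale.Agent.P253.H836
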