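import Vale.Agent.P253.MathlibUsed
import Mathlib.Topology.MetricSpace.Sequences

/-!
P253: escape from a fixed point in the directions of the negative weights (linear part).
-/

open Filter Topology Set

noncomputable section

namespace Vale.Agent.P253.H836

/-- the flow `z_j ↦ exp (- s m_j) z_j` -/
def wt {d : ℕ} (m : Fin d → ℝ) (s : ℝ) (z : Fin d → ℂ) : Fin d → ℂ :=
  fun j => Complex.exp (-((s : ℂ) * m j)) * z j

theorem norm_wt_apply {d : ℕ} (m : Fin d → ℝ) (s : ℝ) (z : Fin d → ℂ) (j : Fin d) :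
    ‖wt m s z j‖ = Real.exp (-(s * m j)) * ‖z j‖ := by
  have h1 : (-((s : ℂ) * m j)) = ((-(s * m j) : ℝ) : ℂ) := by push_cast; ring
  rw [wt, norm_mul, h1, ← Complex.ofReal_exp, Complex.norm_real, Real.norm_eq_abs,
    abs_of_pos (Real.exp_pos _)]

theorem continuous_wt {d : ℕ} (m : Fin d → ℝ) (z : Fin d → ℂ) : Continuous fun s => wt m s z := by
  refine continuous_pi fun j => ?_
  unfold wt
  fun_prop

theorem wt_zero {d : ℕ} (m : Fin d → ℝ) (z : Fin d → ℂ) : wt m 0 z = z := by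
  funext j
  simp [wt]

theorem exists_time {d : ℕ} (m : Fin d → ℝ) {δ : ℝ} {z : Fin d → ℂ} (hz : ‖z‖ < δ)
    (hneg : ∃ j, m j < 0 ∧ z j ≠ 0) :
    ∃ T : ℝ, 0 ≤ T ∧ ‖wt m T z‖ = δ ∧ ∀ s, 0 ≤ s → s ≤ T → ‖wt m s z‖ ≤ δ := by
  have hδ : 0 < δ := (norm_nonneg z).trans_lt hz
  obtain ⟨j, hj, hzj⟩ := hneg
  -- the first time at which the norm is `δ`
  have hex : ∃ t : ℝ, 0 ≤ t ∧ δ ≤ ‖wt m t z‖ := by
    have h1 : 0 < ‖z j‖ := norm_pos_iff.2 hzj
    refine ⟨δ / ‖z j‖ / (-m j), div_nonneg (by positivity) (by linarith), ?_⟩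
    refine le_trans ?_ (norm_le_pi_norm _ j)
    rw [norm_wt_apply]
    have h2 : -(δ / ‖z j‖ / (-m j) * m j) = δ / ‖z j‖ := by
      have h3 : m j ≠ 0 := hj.ne
      field_simp
    rw [h2]
    have h3 := Real.add_one_le_exp (δ / ‖z j‖)
    have h4 : δ = δ / ‖z j‖ * ‖z j‖ := by field_simp
    calc δ = δ / ‖z j‖ * ‖z j‖ := h4
      _ ≤ Real.exp (δ / ‖z j‖) * ‖z j‖ := by
        refine mul_le_mul_of_nonneg_right ?_ h1.le
        linarith
  set S : Set ℝ := {t | 0 ≤ t ∧ δ ≤ ‖wt m t z‖} with hS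
  have hSc : IsClosed S :=
    isClosed_Ici.inter (isClosed_le continuous_const (continuous_wt m z).norm)
  have hSb : BddBelow S := ⟨0, fun t ht => ht.1⟩
  have hT := hSc.csInf_mem hex hSb
  set T := sInf S with hTd
  have hlow : ∀ s, 0 ≤ s → s < T → ‖wt m s z‖ < δ := by
    intro s hs hsT
    by_contra hcon
    exact absurd (csInf_le hSb ⟨hs, not_lt.1 hcon⟩) (not_le.2 hsT)
  have hTle : ‖wt m T z‖ ≤ δ := by
    rcases hT.1.eq_or_lt with h0 | h0
    · rw [← h0, wt_zero]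
      exact hz.le
    · have h1 : Tendsto (fun s => ‖wt m s z‖) (𝓝[<] T) (𝓝 ‖wt m T z‖) :=
        ((continuous_wt m z).norm.tendsto T).mono_left nhdsWithin_le_nhds
      refine le_of_tendsto h1 ?_
      filter_upwards [Ioo_mem_nhdsLT h0] with s hs
      exact (hlow s hs.1.le hs.2).le
  refine ⟨T, hT.1, le_antisymm hTle hT.2, fun s hs hsT => ?_⟩
  rcases hsT.eq_or_lt with h | h
  · rw [h]; exact hTle
  · exact (hlow s hs h).le

theorem norm_wt_le {d : ℕ} (m : Fin d → ℝ) {μ : ℝ} (hμ : ∀ j, -m j ≤ μ) (hμ0 : 0 ≤ μ) {s : ℝ}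
    (hs : 0 ≤ s) (z : Fin d → ℂ) : ‖wt m s z‖ ≤ Real.exp (s * μ) * ‖z‖ := by
  refine (pi_norm_le_iff_of_nonneg (by positivity)).2 fun j => ?_
  rw [norm_wt_apply]
  refine mul_le_mul (Real.exp_le_exp.2 ?_) (norm_le_pi_norm z j) (norm_nonneg _)
    (Real.exp_pos _).le
  nlinarith [hμ j]

/-- **escape along the negative weights** -/
theorem exists_escape {d : ℕ} (m : Fin d → ℝ) {δ : ℝ} (hδ : 0 < δ) {z : ℕ → Fin d → ℂ}
    (hz : Tendsto z atTop (𝓝 0)) (hneg : ∀ k, ∃ j, m j < 0 ∧ z k j ≠ 0) :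
    ∃ (φ : ℕ → ℕ) (T : ℕ → ℝ) (w : Fin d → ℂ), StrictMono φ ∧ (∀ k, 0 ≤ T k) ∧
      Tendsto T atTop atTop ∧ ‖w‖ = δ ∧ (∀ j, 0 ≤ m j → w j = 0) ∧
      Tendsto (fun k => wt m (T k) (z (φ k))) atTop (𝓝 w) ∧
      ∀ k s, 0 ≤ s → s ≤ T k → ‖wt m s (z (φ k))‖ ≤ δ := by
  have hzn : Tendsto (fun k => ‖z k‖) atTop (𝓝 0) := by
    have := hz.norm
    rwa [norm_zero] at this
  obtain ⟨k₀, hk₀⟩ := eventually_atTop.1 (hzn.eventually_lt_const hδ)
  have hT : ∀ k, ∃ T : ℝ, 0 ≤ T ∧ ‖wt m T (z (k + k₀))‖ = δ ∧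
      ∀ s, 0 ≤ s → s ≤ T → ‖wt m s (z (k + k₀))‖ ≤ δ := fun k =>
    exists_time m (hk₀ _ (Nat.le_add_left _ _)) (hneg _)
  choose T hT0 hTδ hTs using hT
  have hzn' : Tendsto (fun k => ‖z (k + k₀)‖) atTop (𝓝 0) :=
    hzn.comp (tendsto_add_atTop_nat k₀)
  -- the times tend to infinity
  obtain ⟨μ, hμ1, hμ⟩ : ∃ μ : ℝ, 1 ≤ μ ∧ ∀ j, -m j ≤ μ := by
    refine ⟨1 + ∑ j, |m j|, ?_, fun j => ?_⟩
    · have : 0 ≤ ∑ j, |m j| := Finset.sum_nonneg fun j _ => abs_nonneg _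
      linarith
    · have h1 : |m j| ≤ ∑ j, |m j| :=
        Finset.single_le_sum (fun i _ => abs_nonneg (m i)) (Finset.mem_univ j)
      have h2 := neg_abs_le (m j)
      linarith
  have hTt : Tendsto T atTop atTop := by
    rw [tendsto_atTop]
    intro B
    have h1 : ∀ᶠ k in atTop, ‖z (k + k₀)‖ < δ * Real.exp (-(|B| * μ)) :=
      hzn'.eventually_lt_const (by positivity)
    filter_upwards [h1] with k hk
    by_contra hcon
    push Not at hcon
    have h2 := norm_wt_le m hμ (by linarith) (hT0 k) (z (k + k₀))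
    rw [hTδ k] at h2
    have h3 : Real.exp (T k * μ) ≤ Real.exp (|B| * μ) := by
      refine Real.exp_le_exp.2 (mul_le_mul_of_nonneg_right ?_ (by linarith))
      exact hcon.le.trans (le_abs_self B)
    have h4 : Real.exp (T k * μ) * ‖z (k + k₀)‖ < δ := by
      have hpos : 0 < Real.exp (|B| * μ) := Real.exp_pos _
      calc Real.exp (T k * μ) * ‖z (k + k₀)‖ ≤ Real.exp (|B| * μ) * ‖z (k + k₀)‖ :=
            mul_le_mul_of_nonneg_right h3 (norm_nonneg _)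
        _ < Real.exp (|B| * μ) * (δ * Real.exp (-(|B| * μ))) := mul_lt_mul_of_pos_left hk hpos
        _ = δ := by
          rw [mul_comm δ, ← mul_assoc, ← Real.exp_add, add_neg_cancel, Real.exp_zero, one_mul]
    linarith
  have hprop : ProperSpace (Fin d → ℂ) := inferInstance
  obtain ⟨w, -, φ, hφ, hlim⟩ := tendsto_subseq_of_bounded
    (Metric.isBounded_closedBall (x := (0 : Fin d → ℂ)) (r := δ))
    (x := fun k => wt m (T k) (z (k + k₀))) (fun k => by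
      rw [mem_closedBall_zero_iff]
      exact (hTδ k).le)
  refine ⟨fun k => φ k + k₀, fun k => T (φ k), w, fun a b hab => by
    have := hφ hab
    simp only
    omega, fun k => hT0 _, hTt.comp hφ.tendsto_atTop, ?_, fun j hj => ?_, hlim, fun k s => hTs _ s⟩
  · have h1 := hlim.norm
    have h2 : (fun k => ‖wt m (T (φ k)) (z (φ k + k₀))‖) = fun _ => δ := by
      funext k
      exact hTδ _
    have h3 : Tendsto (fun k => ‖wt m (T (φ k)) (z (φ k + k₀))‖) atTop (𝓝 ‖w‖) := h1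
    rw [h2] at h3
    exact tendsto_nhds_unique h3 tendsto_const_nhds
  · have h1 : Tendsto (fun k => ‖wt m (T (φ k)) (z (φ k + k₀)) j‖) atTop (𝓝 ‖w j‖) :=
      ((tendsto_pi_nhds.1 hlim) j).norm
    have h2 : Tendsto (fun k => ‖z (φ k + k₀)‖) atTop (𝓝 0) := hzn'.comp hφ.tendsto_atTop
    have h3 : Tendsto (fun k => ‖wt m (T (φ k)) (z (φ k + k₀)) j‖) atTop (𝓝 0) := by
      refine squeeze_zero (fun k => norm_nonneg _) (fun k => ?_) h2
      rw [norm_wt_apply]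
      have h4 : Real.exp (-(T (φ k) * m j)) ≤ 1 := by
        rw [Real.exp_le_one_iff]
        have := mul_nonneg (hT0 (φ k)) hj
        linarith
      calc Real.exp (-(T (φ k) * m j)) * ‖z (φ k + k₀) j‖ ≤ 1 * ‖z (φ k + k₀)‖ :=
            mul_le_mul h4 (norm_le_pi_norm _ j) (norm_nonneg _) zero_le_one
        _ = ‖z (φ k + k₀)‖ := one_mul _
    exact norm_eq_zero.1 (tendsto_nhds_unique h1 h3)

end Vale.Agent.P253.H836
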