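import Vale.Agent.P253.H836.LimBdd

/-!
P253, H836: bounded equicontinuous groups of automorphisms fixing a point: the pointwise closure is
again such a group, limits, one-parameter groups from the eigenvalues.
-/

open scoped Manifold ContDiff Topology Bundle
open Set Metric Complex Filter Bundle IsManifold Manifold Module Vale.Agent.P253.Mfd

set_option maxSynthPendingDepth 3
set_option linter.unusedSectionVars false

noncomputable section

namespace Vale.Agent.P253.H836

variable {E : Type*} [NormedAddCommGroup E] [NormedSpace ℂ E]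
  {M : Type*} [MetricSpace M] [ChartedSpace E M]

/-- the complex differential of a self-map, as an endomorphism of the model space -/
def cD (f : M → M) (x : M) : E →L[ℂ] E := mfderiv 𝓘(ℂ, E) 𝓘(ℂ, E) f x

variable (E) in
/-- `G` is a bounded equicontinuous group of automorphisms which fix `p` -/
structure BG (G : Set (M → M)) (p : M) : Prop where
  holo : ∀ g ∈ G, MDifferentiable 𝓘(ℂ, E) 𝓘(ℂ, E) g
  fix : ∀ g ∈ G, g p = p
  comp : ∀ g ∈ G, ∀ h ∈ G, g ∘ h ∈ G
  inv : ∀ g ∈ G, ∃ h ∈ G, ∀ x, h (g x) = x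
  bdd : ∀ C : Set M, IsCompact C → ∃ C' : Set M, IsCompact C' ∧ ∀ g ∈ G, ∀ x ∈ C, g x ∈ C'
  equi : ∀ x₁ : M, ∀ ε > 0, ∃ U ∈ 𝓝 x₁, ∀ g ∈ G, ∀ x ∈ U, ∀ y ∈ U, dist (g x) (g y) < ε

variable [IsManifold 𝓘(ℂ, E) 1 M]

theorem cD_comp {f g : M → M} (hf : MDifferentiable 𝓘(ℂ, E) 𝓘(ℂ, E) f)
    (hg : MDifferentiable 𝓘(ℂ, E) 𝓘(ℂ, E) g) (x : M) (w : E) :
    cD (E := E) (g ∘ f) x w = cD g (f x) (cD f x w) := by
  have h := mfderiv_comp (I := 𝓘(ℂ, E)) (I' := 𝓘(ℂ, E)) (I'' := 𝓘(ℂ, E)) x (hg (f x)) (hf x)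
  exact congrArg (fun T : E →L[ℂ] E => T w) h

theorem cD_id (x : M) (w : E) : cD (E := E) (id : M → M) x w = w := by
  have h := mfderiv_id (I := 𝓘(ℂ, E)) (M := M) (x := x)
  exact congrArg (fun T : E →L[ℂ] E => T w) h

variable [FiniteDimensional ℂ E] {G : Set (M → M)} {p : M}

/-- limits of elements of a bounded group -/
theorem BG.limit (hG : BG E G p) {ι : Type*} (u : Ultrafilter ι) {g : ι → M → M}
    (hg : ∀ᶠ i in (u : Filter ι), g i ∈ G) :
    ∃ F : M → M, F ∈ closure G ∧ MDifferentiable 𝓘(ℂ, E) 𝓘(ℂ, E) F ∧ F p = p ∧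
      (∀ x, Tendsto (fun i => g i x) u (𝓝 (F x))) ∧
      ∀ v : E, Tendsto (fun i => cD (E := E) (g i) p v) u (𝓝 (cD (E := E) F p v)) := by
  classical
  obtain ⟨i₀, hi₀⟩ := hg.exists
  set g' : ι → M → M := fun i => if g i ∈ G then g i else g i₀ with hg'
  have hmem : ∀ i, g' i ∈ G := by
    intro i
    by_cases h : g i ∈ G
    · simp only [hg', if_pos h]; exact h
    · simp only [hg', if_neg h]; exact hi₀
  have heq : ∀ᶠ i in (u : Filter ι), g' i = g i := hg.mono fun i hi => by simp only [hg', if_pos hi]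
  obtain ⟨F, h1, h2, -, h4, -, -, h7⟩ := exists_limit_eq (E := E) (p := p) u (g := g')
    (fun i => hG.holo _ (hmem i)) (fun i => hG.fix _ (hmem i))
    (fun C hC => by
      obtain ⟨C', hC', h⟩ := hG.bdd C hC
      exact ⟨C', hC', fun i => h _ (hmem i)⟩)
    (fun x₁ ε hε => by
      obtain ⟨U, hU, h⟩ := hG.equi x₁ ε hε
      exact ⟨U, hU, fun i => h _ (hmem i)⟩)
  refine ⟨F, ?_, h1, h2, fun x => ?_, fun v => ?_⟩
  · exact mem_closure_of_tendsto (tendsto_pi_nhds.2 h4) (Eventually.of_forall hmem)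
  · exact (h4 x).congr' (heq.mono fun i hi => by rw [hi])
  · have h8 : Tendsto (fun i => cD (E := E) (g' i) p v) u (𝓝 (cD (E := E) F p v)) := h7 v
    exact h8.congr' (heq.mono fun i hi => by rw [hi])

theorem BG.mem_closure (hG : BG E G p) {f : M → M} (hf : f ∈ closure G) :
    MDifferentiable 𝓘(ℂ, E) 𝓘(ℂ, E) f ∧ f p = p ∧ ∃ u : Ultrafilter (M → M), G ∈ u ∧
      (∀ x, Tendsto (fun h : M → M => h x) u (𝓝 (f x))) ∧
      ∀ v : E, Tendsto (fun h : M → M => cD (E := E) h p v) u (𝓝 (cD (E := E) f p v)) := by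
  obtain ⟨u, hu, huf⟩ := mem_closure_iff_ultrafilter.1 hf
  obtain ⟨F, -, h1, h2, h3, h4⟩ := hG.limit (E := E) u (g := fun h => h) hu
  have h5 : ∀ x, Tendsto (fun h : M → M => h x) u (𝓝 (f x)) := by
    intro x
    have : Tendsto (fun h : M → M => h x) (𝓝 f) (𝓝 (f x)) := (continuous_apply x).tendsto f
    exact this.mono_left huf
  have h6 : F = f := funext fun x => tendsto_nhds_unique (h3 x) (h5 x)
  subst h6
  exact ⟨h1, h2, u, hu, h3, h4⟩

/-- **the closure of a bounded group is a bounded group** -/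
theorem BG.clos (hG : BG E G p) : BG E (closure G) p where
  holo f hf := (hG.mem_closure hf).1
  fix f hf := (hG.mem_closure hf).2.1
  comp := by
    have h1 : ∀ g ∈ G, ∀ h ∈ closure G, g ∘ h ∈ closure G := by
      intro g hg h hh
      have hc : Continuous (fun h : M → M => g ∘ h) :=
        continuous_pi fun x => (hG.holo g hg).continuous.comp (continuous_apply x)
      exact map_mem_closure hc hh fun k hk => hG.comp g hg k hk
    intro g hg h hh
    have hc : Continuous (fun g : M → M => g ∘ h) :=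
      continuous_pi fun x => continuous_apply (h x)
    have h2 := map_mem_closure hc hg (t := closure G) fun k hk => h1 k hk h hh
    rwa [closure_closure] at h2
  inv := by
    classical
    intro f hf
    obtain ⟨hfm, -, u, hu, hux, -⟩ := hG.mem_closure hf
    set k : (M → M) → M → M := fun g => if h : g ∈ G then (hG.inv g h).choose else g with hk
    have hk1 : ∀ g ∈ G, k g ∈ G ∧ ∀ x, k g (g x) = x := by
      intro g hg
      simp only [hk, dif_pos hg]
      exact (hG.inv g hg).choose_spec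
    obtain ⟨F, hF, hFm, -, hFx, -⟩ := hG.limit (E := E) u (g := k)
      (by filter_upwards [hu] with g hg using (hk1 g hg).1)
    refine ⟨F, hF, fun x => ?_⟩
    refine tendsto_nhds_unique (hFx (f x)) ?_
    rw [Metric.tendsto_nhds]
    intro ε hε
    obtain ⟨U, hU, h⟩ := hG.equi (f x) ε hε
    filter_upwards [hu, (hux x).eventually hU] with g hg hgU
    have h1 := h (k g) (hk1 g hg).1 (f x) (mem_of_mem_nhds hU) (g x) hgU
    rwa [(hk1 g hg).2 x] at h1
  bdd C hC := by
    obtain ⟨C', hC', h⟩ := hG.bdd C hC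
    refine ⟨C', hC', fun f hf x hx => ?_⟩
    obtain ⟨-, -, u, hu, hux, -⟩ := hG.mem_closure hf
    exact hC'.isClosed.mem_of_tendsto (hux x) (by filter_upwards [hu] with g hg using h g hg x hx)
  equi x₁ ε hε := by
    obtain ⟨U, hU, h⟩ := hG.equi x₁ (ε / 2) (half_pos hε)
    refine ⟨U, hU, fun f hf x hx y hy => ?_⟩
    obtain ⟨-, -, u, hu, hux, -⟩ := hG.mem_closure hf
    have h1 : dist (f x) (f y) ≤ ε / 2 := le_of_tendsto ((hux x).dist (hux y))
      (by filter_upwards [hu] with g hg using (h g hg x hx y hy).le)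
    linarith

variable {n : ℕ} {b : Module.Basis (Fin n) ℂ E}

/-- `g` belongs to `G` and its differential at `p` is `diag c` in the basis `b` -/
structure DG (G : Set (M → M)) (p : M) (b : Module.Basis (Fin n) ℂ E) (g : M → M)
    (c : Fin n → ℂ) : Prop where
  mem : g ∈ G
  diag : ∀ j, cD (E := E) g p (b j) = c j • b j

theorem DG.comp (hG : BG E G p) {g h : M → M} {c d : Fin n → ℂ} (hg : DG G p b g c)
    (hh : DG G p b h d) : DG G p b (g ∘ h) (c * d) where
  mem := hG.comp g hg.mem h hh.mem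
  diag j := by
    rw [cD_comp (hG.holo h hh.mem) (hG.holo g hg.mem), hG.fix h hh.mem, hh.diag, map_smul, hg.diag,
      smul_smul, Pi.mul_apply, mul_comm]

theorem DG.deriv_id {g : M → M} (hg : DG G p b g 1) (v : E) : cD (E := E) g p v = v := by
  have h1 : (cD (E := E) g p : E →ₗ[ℂ] E) = LinearMap.id := by
    refine b.ext fun j => ?_
    have := hg.diag j
    rw [Pi.one_apply, one_smul] at this
    exact this
  exact congrArg (fun T : E →ₗ[ℂ] E => T v) h1

theorem id_mem (hG : BG E G p) (hne : G.Nonempty) : (id : M → M) ∈ G := by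
  obtain ⟨g, hg⟩ := hne
  obtain ⟨h, hh, hgh⟩ := hG.inv g hg
  have h1 : h ∘ g = id := funext hgh
  rw [← h1]
  exact hG.comp h hh g hg

theorem dg_id (hG : BG E G p) (hne : G.Nonempty) : DG G p b (id : M → M) 1 where
  mem := id_mem hG hne
  diag j := by rw [cD_id, Pi.one_apply, one_smul]

/-- limits of diagonal elements -/
theorem dg_limit (hG : BG E G p) (hcl : IsClosed G) {ι : Type*} (u : Ultrafilter ι)
    {g : ι → M → M} {c : ι → Fin n → ℂ} (hg : ∀ᶠ i in (u : Filter ι), DG G p b (g i) (c i))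
    {d : Fin n → ℂ} (hc : Tendsto c u (𝓝 d)) :
    ∃ F : M → M, DG G p b F d ∧ ∀ x, Tendsto (fun i => g i x) u (𝓝 (F x)) := by
  obtain ⟨F, h1, h2, h3, h4, h5⟩ := hG.limit (E := E) u (g := g) (hg.mono fun i hi => hi.mem)
  rw [hcl.closure_eq] at h1
  refine ⟨F, ⟨h1, fun j => ?_⟩, h4⟩
  have h6 : Tendsto (fun i => c i j • b j) u (𝓝 (d j • b j)) :=
    ((tendsto_pi_nhds.1 hc) j).smul_const (b j)
  refine tendsto_nhds_unique ((h5 (b j)).congr' ?_) h6
  filter_upwards [hg] with i hi using hi.diag j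

theorem DG.ne_zero (hG : BG E G p) {f : M → M} {c : Fin n → ℂ} (hf : DG G p b f c) (j : Fin n) :
    c j ≠ 0 := by
  obtain ⟨h, hh, hhf⟩ := hG.inv f hf.mem
  have h6 : h ∘ f = id := funext hhf
  have h7 := cD_comp (hG.holo f hf.mem) (hG.holo h hh) p (b j)
  rw [h6, cD_id, hG.fix f hf.mem, hf.diag, map_smul] at h7
  intro h0
  rw [h0, zero_smul] at h7
  exact b.ne_zero j h7

theorem DG.exists_inv (hG : BG E G p) {f : M → M} {c : Fin n → ℂ} (hf : DG G p b f c) :
    ∃ g : M → M, DG G p b g c⁻¹ ∧ ∀ x, g (f x) = x := by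
  obtain ⟨h, hh, hhf⟩ := hG.inv f hf.mem
  refine ⟨h, ⟨hh, fun j => ?_⟩, hhf⟩
  have h6 : h ∘ f = id := funext hhf
  have h7 := cD_comp (hG.holo f hf.mem) (hG.holo h hh) p (b j)
  rw [h6, cD_id, hG.fix f hf.mem, hf.diag, map_smul] at h7
  have hc := hf.ne_zero hG j
  rw [Pi.inv_apply]
  calc cD (E := E) h p (b j) = (c j)⁻¹ • (c j • cD (E := E) h p (b j)) := by
        rw [smul_smul, inv_mul_cancel₀ hc, one_smul]
    _ = (c j)⁻¹ • b j := by rw [← h7]

/-- uniqueness, from Cartan's theorem for the group -/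
theorem DG.unique (hG : BG E G p)
    (hcart : ∀ g ∈ G, (∀ v : E, cD (E := E) g p v = v) → ∀ x, g x = x) {f g : M → M}
    {c : Fin n → ℂ} (hf : DG G p b f c) (hg : DG G p b g c) : f = g := by
  obtain ⟨h, hh, hhg⟩ := hg.exists_inv hG
  have h1 := hh.comp hG hf
  have h2 : c⁻¹ * c = 1 := by
    funext j
    have hc : c j ≠ 0 := hf.ne_zero hG j
    simp [hc]
  rw [h2] at h1
  obtain ⟨k, hk, hkh⟩ := hG.inv h hh.mem
  funext x
  have h3 : h (f x) = x := hcart _ h1.mem h1.deriv_id x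
  rw [← hkh (f x), h3, ← hkh (g x), hhg]

/-- the set of the eigenvalues is closed -/
theorem exists_of_mem_closure (hG : BG E G p) (hcl : IsClosed G) {c : Fin n → ℂ}
    (hc : c ∈ closure {c | ∃ g : M → M, DG G p b g c}) : ∃ g : M → M, DG G p b g c := by
  classical
  obtain ⟨u, hu, huc⟩ := mem_closure_iff_ultrafilter.1 hc
  set g : (Fin n → ℂ) → M → M := fun d =>
    if h : ∃ g : M → M, DG G p b g d then h.choose else id with hg
  have h1 : ∀ d, (∃ g : M → M, DG G p b g d) → DG G p b (g d) d := by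
    intro d h
    simp only [hg, dif_pos h]
    exact h.choose_spec
  obtain ⟨F, hF, -⟩ := dg_limit (b := b) hG hcl u (g := g) (c := id)
    (by filter_upwards [hu] with d hd using h1 d hd) (d := c) huc
  exact ⟨F, hF⟩

/-- **the one-parameter group** with given integer weights in the closure -/
theorem exists_group (hG : BG E G p) (hcl : IsClosed G) (hne : G.Nonempty)
    (hcart : ∀ g ∈ G, (∀ v : E, cD (E := E) g p v = v) → ∀ x, g x = x) {m : Fin n → ℝ}
    (hm : ∀ t : ℝ, (fun j => Complex.exp (t * m j * Complex.I)) ∈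
      closure {c | ∃ g : M → M, DG G p b g c}) :
    ∃ ρ : ℝ → M → M,
      (∀ t, DG G p b (ρ t) (fun j => Complex.exp (t * m j * Complex.I))) ∧
      (∀ x, ρ 0 x = x) ∧ (∀ s t x, ρ (s + t) x = ρ s (ρ t x)) ∧
      Continuous (fun q : ℝ × M => ρ q.1 q.2) := by
  choose ρ hρ using fun t : ℝ => exists_of_mem_closure (b := b) hG hcl (hm t)
  have h0 : ρ 0 = id := by
    refine (hρ 0).unique hG hcart ?_
    have h1 : (fun j => Complex.exp (((0:ℝ):ℂ) * m j * Complex.I)) = (1 : Fin n → ℂ) := by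
      funext j
      simp
    rw [h1]
    exact dg_id hG hne
  have hadd : ∀ s t, ρ (s + t) = ρ s ∘ ρ t := by
    intro s t
    refine (hρ (s + t)).unique hG hcart ?_
    have h1 : (fun j => Complex.exp (((s + t : ℝ):ℂ) * m j * Complex.I)) =
        (fun j => Complex.exp ((s:ℂ) * m j * Complex.I)) *
          (fun j => Complex.exp ((t:ℂ) * m j * Complex.I)) := by
      funext j
      rw [Pi.mul_apply, ← Complex.exp_add]
      congr 1
      push_cast
      ring
    rw [h1]
    exact (hρ s).comp hG (hρ t)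
  have hlim : ∀ x, Tendsto (fun t => ρ t x) (𝓝 0) (𝓝 x) := by
    intro x
    rw [tendsto_iff_ultrafilter]
    intro v hv
    have h1 : Tendsto (fun t : ℝ => (fun j => Complex.exp ((t:ℂ) * m j * Complex.I))) (𝓝 0)
        (𝓝 (fun j => Complex.exp (((0:ℝ):ℂ) * m j * Complex.I))) := by
      apply Continuous.tendsto
      fun_prop
    have h2 : (fun j => Complex.exp (((0:ℝ):ℂ) * m j * Complex.I)) = (1 : Fin n → ℂ) := by
      funext j
      simp
    rw [h2] at h1
    obtain ⟨F, hF, h3⟩ := dg_limit (b := b) hG hcl v (g := ρ)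
      (Eventually.of_forall fun t => hρ t) (h1.mono_left hv)
    have h4 : F = id := hF.unique hG hcart (dg_id hG hne)
    have h5 := h3 x
    rw [h4] at h5
    exact h5
  refine ⟨ρ, hρ, fun x => by rw [h0]; rfl, fun s t x => by rw [hadd]; rfl, ?_⟩
  rw [continuous_iff_continuousAt]
  rintro ⟨t₀, y₀⟩
  refine Metric.tendsto_nhds.2 fun ε hε => ?_
  obtain ⟨U, hU, hUe⟩ := hG.equi y₀ (ε / 2) (half_pos hε)
  have h1 : Tendsto (fun q : ℝ × M => ρ t₀ (ρ (q.1 - t₀) y₀)) (𝓝 (t₀, y₀)) (𝓝 (ρ t₀ y₀)) := by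
    have h2 : Tendsto (fun q : ℝ × M => q.1 - t₀) (𝓝 (t₀, y₀)) (𝓝 0) := by
      have : Tendsto (fun q : ℝ × M => q.1 - t₀) (𝓝 (t₀, y₀)) (𝓝 (t₀ - t₀)) :=
        (continuous_fst.sub continuous_const).tendsto _
      rwa [sub_self] at this
    exact (((hG.holo _ (hρ t₀).mem).continuous.tendsto y₀).comp ((hlim y₀).comp h2))
  have h2 : ∀ᶠ q : ℝ × M in 𝓝 (t₀, y₀), q.2 ∈ U :=
    (continuous_snd.tendsto (t₀, y₀)).eventually hU
  filter_upwards [h2, Metric.tendsto_nhds.1 h1 (ε / 2) (half_pos hε)] with q hq1 hq2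
  have h3 := hUe (ρ q.1) (hρ q.1).mem q.2 hq1 y₀ (mem_of_mem_nhds hU)
  have h4 : ρ q.1 y₀ = ρ t₀ (ρ (q.1 - t₀) y₀) := by
    have h5 := congrFun (hadd t₀ (q.1 - t₀)) y₀
    rw [add_sub_cancel] at h5
    exact h5
  rw [← h4] at hq2
  have h5 := dist_triangle (ρ q.1 q.2) (ρ q.1 y₀) (ρ t₀ y₀)
  change dist (ρ q.1 q.2) (ρ t₀ y₀) < ε
  linarith

end Vale.Agent.P253.H836
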