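import Vale.Agent.P253.MathlibUsed
import Mathlib.Analysis.InnerProductSpace.Spectrum
import Mathlib.Topology.MetricSpace.Sequences

/-!
P253: a dichotomy for solutions of `v' = -A v` with `A` symmetric and nondecreasing.
-/

open Filter Topology Set

noncomputable section

namespace Vale.Agent.P253.H836

variable {H : Type*} [NormedAddCommGroup H] [InnerProductSpace ℝ H]

/-- Cauchy-Schwarz for a nonnegative form -/
theorem cs_of_nonneg {P : H →L[ℝ] H} (hs : ∀ x y, inner ℝ (P x) y = inner ℝ x (P y))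
    (hp : ∀ x, 0 ≤ inner ℝ (P x) x) (x y : H) :
    inner ℝ (P x) y ^ 2 ≤ inner ℝ (P x) x * inner ℝ (P y) y := by
  have h : ∀ t : ℝ, 0 ≤ inner ℝ (P y) y * (t * t) + (2 * inner ℝ (P x) y) * t
      + inner ℝ (P x) x := by
    intro t
    have h1 := hp (x + t • y)
    have h2 : inner ℝ (P y) x = inner ℝ (P x) y := by rw [hs, real_inner_comm]
    simp only [map_add, map_smul, inner_add_left, inner_add_right, real_inner_smul_left,
      real_inner_smul_right, h2] at h1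
    linarith only [h1]
  have h3 := discrim_le_zero h
  rw [discrim] at h3
  nlinarith only [h3]

theorem normSq_le {P : H →L[ℝ] H} (hs : ∀ x y, inner ℝ (P x) y = inner ℝ x (P y))
    (hp : ∀ x, 0 ≤ inner ℝ (P x) x) {k : ℝ} (hk : ∀ x, inner ℝ (P x) x ≤ k * ‖x‖ ^ 2) (x : H) :
    ‖P x‖ ^ 2 ≤ k * inner ℝ (P x) x := by
  have h1 := cs_of_nonneg hs hp x (P x)
  rw [real_inner_self_eq_norm_sq] at h1
  have h2 := hk (P x)
  rcases (norm_nonneg (P x)).eq_or_lt with h0 | h0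
  · have h3 : P x = 0 := norm_eq_zero.1 h0.symm
    simp [h3]
  · have h3 : 0 < ‖P x‖ ^ 2 := by positivity
    have h4 := mul_le_mul_of_nonneg_left h2 (hp x)
    have h5 : ‖P x‖ ^ 2 * ‖P x‖ ^ 2 ≤ (k * inner ℝ (P x) x) * ‖P x‖ ^ 2 := by
      nlinarith only [h1, h4]
    exact le_of_mul_le_mul_right h5 h3

theorem pos_min {ι : Type*} [Finite ι] (f : ι → ℝ) : ∃ k > 0, ∀ i, 0 < f i → k ≤ f i := by
  classical
  cases isEmpty_or_nonempty ι with
  | inl h => exact ⟨1, one_pos, fun i => (h.false i).elim⟩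
  | inr h =>
    obtain ⟨i0, hi0⟩ := Finite.exists_min (fun i => if 0 < f i then f i else 1)
    refine ⟨if 0 < f i0 then f i0 else 1, ?_, fun i hi => ?_⟩
    · split_ifs with h1
      · exact h1
      · exact one_pos
    · have h2 := hi0 i
      simp only [if_pos hi] at h2
      exact h2

section fin

variable [FiniteDimensional ℝ H]

/-- the positive eigenvalues are bounded away from zero -/
theorem exists_gap {X : H →L[ℝ] H} (hs : ∀ x y, inner ℝ (X x) y = inner ℝ x (X y)) :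
    ∃ k > 0, ∀ u, k * inner ℝ (X u) u ≤ ‖X u‖ ^ 2 := by
  have hT : (X : H →ₗ[ℝ] H).IsSymmetric := fun x y => hs x y
  set b := hT.eigenvectorBasis rfl with hb
  obtain ⟨k, hk, hmin⟩ := pos_min (hT.eigenvalues rfl)
  refine ⟨k, hk, fun u => ?_⟩
  have h1 : ∀ i, b.repr (X u) i = hT.eigenvalues rfl i * b.repr u i := fun i =>
    hT.eigenvectorBasis_apply_self_apply rfl u i
  have h2 : ‖X u‖ ^ 2 = ∑ i, (hT.eigenvalues rfl i * b.repr u i) ^ 2 := by
    rw [← b.repr.norm_map (X u), EuclideanSpace.norm_sq_eq]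
    refine Finset.sum_congr rfl fun i _ => ?_
    rw [h1, Real.norm_eq_abs, sq_abs]
  have h3 : inner ℝ (X u) u = ∑ i, hT.eigenvalues rfl i * b.repr u i ^ 2 := by
    rw [← b.repr.inner_map_map (X u) u, PiLp.inner_apply]
    refine Finset.sum_congr rfl fun i _ => ?_
    rw [h1]
    simp only [RCLike.inner_apply, conj_trivial]
    ring
  rw [h2, h3, Finset.mul_sum]
  refine Finset.sum_le_sum fun i _ => ?_
  rcases lt_or_ge 0 (hT.eigenvalues rfl i) with h4 | h4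
  · have h5 := hmin i h4
    have h6 : 0 ≤ b.repr u i ^ 2 := sq_nonneg _
    have h7 := mul_le_mul_of_nonneg_right h5 h4.le
    nlinarith only [mul_le_mul_of_nonneg_right h7 h6]
  · have h6 : 0 ≤ b.repr u i ^ 2 := sq_nonneg _
    have h7 : k * (hT.eigenvalues rfl i * b.repr u i ^ 2) ≤ 0 :=
      mul_nonpos_of_nonneg_of_nonpos hk.le (mul_nonpos_of_nonpos_of_nonneg h4 h6)
    exact h7.trans (sq_nonneg _)

/-- a nonincreasing family of nonnegative operators converges -/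
theorem exists_limit {R : ℝ → H →L[ℝ] H}
    (hs : ∀ t, 0 ≤ t → ∀ x y, inner ℝ (R t x) y = inner ℝ x (R t y))
    (hp : ∀ t, 0 ≤ t → ∀ x, 0 ≤ inner ℝ (R t x) x)
    (h1 : ∀ t, 0 ≤ t → ∀ x, inner ℝ (R t x) x ≤ ‖x‖ ^ 2)
    (hm : ∀ s t, 0 ≤ s → s ≤ t → ∀ x, inner ℝ (R t x) x ≤ inner ℝ (R s x) x) :
    ∃ Q : H →L[ℝ] H, (∀ x y, inner ℝ (Q x) y = inner ℝ x (Q y)) ∧
      ∀ k > 0, ∃ T : ℝ, 0 ≤ T ∧ ∀ t, T ≤ t → ∀ x,
        0 ≤ inner ℝ ((R t - Q) x) x ∧ inner ℝ ((R t - Q) x) x ≤ k * ‖x‖ ^ 2 := by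
  have hprop : ProperSpace (H →L[ℝ] H) := FiniteDimensional.proper ℝ (H →L[ℝ] H)
  have hbd : ∀ n : ℕ, R n ∈ Metric.closedBall (0 : H →L[ℝ] H) 1 := by
    intro n
    rw [mem_closedBall_zero_iff]
    refine ContinuousLinearMap.opNorm_le_bound _ zero_le_one fun x => ?_
    have hn : (0:ℝ) ≤ n := Nat.cast_nonneg n
    have h2 := normSq_le (hs n hn) (hp n hn) (k := 1) (fun x => by rw [one_mul]; exact h1 n hn x) x
    have h3 := h1 n hn x
    rw [one_mul] at h2 ⊢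
    exact le_of_sq_le_sq (h2.trans h3) (norm_nonneg x)
  obtain ⟨Q, -, φ, hφ, hlim⟩ := tendsto_subseq_of_bounded Metric.isBounded_closedBall hbd
  have hap : ∀ x y, Tendsto (fun n => inner ℝ (R (φ n) x) y) atTop (𝓝 (inner ℝ (Q x) y)) := by
    intro x y
    have h2 : Continuous fun T : H →L[ℝ] H => inner ℝ (T x) y := by fun_prop
    exact (h2.tendsto Q).comp hlim
  have hap' : ∀ x y, Tendsto (fun n => inner ℝ x (R (φ n) y)) atTop (𝓝 (inner ℝ x (Q y))) := by
    intro x y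
    have h2 : Continuous fun T : H →L[ℝ] H => inner ℝ x (T y) := by fun_prop
    exact (h2.tendsto Q).comp hlim
  have hge : ∀ t, 0 ≤ t → ∀ x, inner ℝ (Q x) x ≤ inner ℝ (R t x) x := by
    intro t ht x
    refine le_of_tendsto (hap x x) ?_
    filter_upwards [eventually_ge_atTop ⌈t⌉₊] with n hn
    have h2 : t ≤ φ n := (Nat.le_ceil t).trans (by exact_mod_cast hn.trans (hφ.id_le n))
    exact hm t (φ n) ht h2 x
  refine ⟨Q, fun x y => tendsto_nhds_unique (hap x y) ?_, fun k hk => ?_⟩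
  · refine (hap' x y).congr fun n => ?_
    exact (hs (φ n) (Nat.cast_nonneg _) x y).symm
  · have h2 : ∀ᶠ n in atTop, ‖R (φ n) - Q‖ < k := by
      have h3 := (Metric.tendsto_nhds.1 hlim) k hk
      filter_upwards [h3] with n hn
      rwa [← dist_eq_norm]
    obtain ⟨n, hn⟩ := h2.exists
    refine ⟨φ n, Nat.cast_nonneg _, fun t ht x => ?_⟩
    have ht0 : 0 ≤ t := (Nat.cast_nonneg (φ n)).trans ht
    have h4 := hge t ht0 x
    have h5 := hm (φ n) t (Nat.cast_nonneg _) ht x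
    have h6 : inner ℝ ((R (φ n) - Q) x) x ≤ k * ‖x‖ ^ 2 := by
      refine (real_inner_le_norm _ _).trans ?_
      have h7 := (R (φ n) - Q).le_opNorm x
      have h8 := norm_nonneg x
      nlinarith only [h7, h8, hn, mul_nonneg h8 h8, mul_le_mul_of_nonneg_right h7 h8,
        mul_le_mul_of_nonneg_right hn.le (mul_nonneg h8 h8)]
    simp only [sub_apply, inner_sub_left] at h6 ⊢
    constructor <;> linarith only [h4, h5, h6]

/-- the gap persists -/
theorem exists_gap_t {R : ℝ → H →L[ℝ] H}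
    (hs : ∀ t, 0 ≤ t → ∀ x y, inner ℝ (R t x) y = inner ℝ x (R t y))
    (hp : ∀ t, 0 ≤ t → ∀ x, 0 ≤ inner ℝ (R t x) x)
    (h1 : ∀ t, 0 ≤ t → ∀ x, inner ℝ (R t x) x ≤ ‖x‖ ^ 2)
    (hm : ∀ s t, 0 ≤ s → s ≤ t → ∀ x, inner ℝ (R t x) x ≤ inner ℝ (R s x) x) (q : ℝ) :
    ∃ k > 0, ∃ T : ℝ, 0 ≤ T ∧ ∀ t, T ≤ t → ∀ x,
      k * (q * ‖x‖ ^ 2 - inner ℝ (R t x) x) ≤ ‖q • x - R t x‖ ^ 2 := by
  obtain ⟨Q, hQs, hQ⟩ := exists_limit hs hp h1 hm
  set X : H →L[ℝ] H := q • ContinuousLinearMap.id ℝ H - Q with hX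
  have hXa : ∀ x, X x = q • x - Q x := fun x => by simp [hX]
  have hXs : ∀ x y, inner ℝ (X x) y = inner ℝ x (X y) := by
    intro x y
    rw [hXa, hXa, inner_sub_left, inner_sub_right, real_inner_smul_left, real_inner_smul_right,
      hQs]
  obtain ⟨k2, hk2, hgap⟩ := exists_gap hXs
  obtain ⟨T, hT, hE⟩ := hQ (k2 / 2) (by positivity)
  refine ⟨k2 / 2, by positivity, T, hT, fun t ht x => ?_⟩
  have ht0 : 0 ≤ t := hT.trans ht
  set E : H →L[ℝ] H := R t - Q with hEd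
  have hEs : ∀ x y, inner ℝ (E x) y = inner ℝ x (E y) := by
    intro x y
    simp only [hEd, sub_apply, inner_sub_left, inner_sub_right]
    rw [hs t ht0, hQs]
  have h2 := normSq_le hEs (fun x => (hE t ht x).1) (fun x => (hE t ht x).2) x
  have h3 : q • x - R t x = X x - E x := by
    rw [hXa]; simp [hEd]
  have h4 : q * ‖x‖ ^ 2 - inner ℝ (R t x) x = inner ℝ (X x) x - inner ℝ (E x) x := by
    rw [← inner_sub_left, ← h3, inner_sub_left, real_inner_smul_left, real_inner_self_eq_norm_sq]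
  rw [h3, h4, norm_sub_sq_real]
  have h5 := hgap x
  have h6 : 0 ≤ ‖X x - (2:ℝ) • E x‖ ^ 2 := sq_nonneg _
  rw [norm_sub_sq_real, norm_smul, real_inner_smul_right, Real.norm_eq_abs, mul_pow, sq_abs] at h6
  nlinarith only [h2, h5, h6]

/-- a nonnegative form is bounded by its trace -/
theorem le_trace {K : H →L[ℝ] H} (hs : ∀ x y, inner ℝ (K x) y = inner ℝ x (K y))
    (hp : ∀ x, 0 ≤ inner ℝ (K x) x) {ι : Type*} [Fintype ι] (b : OrthonormalBasis ι ℝ H) (u : H) :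
    inner ℝ (K u) u ≤ ‖u‖ ^ 2 * ∑ i, inner ℝ (K (b i)) (b i) := by
  have h1 : ‖K u‖ ^ 2 ≤ inner ℝ (K u) u * ∑ i, inner ℝ (K (b i)) (b i) := by
    rw [← b.sum_sq_norm_inner_left (K u), Finset.mul_sum]
    refine Finset.sum_le_sum fun i _ => ?_
    rw [Real.norm_eq_abs, sq_abs]
    exact cs_of_nonneg hs hp u (b i)
  have h2 := real_inner_le_norm (K u) u
  have h3 : inner ℝ (K u) u ^ 2 ≤ ‖K u‖ ^ 2 * ‖u‖ ^ 2 := by
    rw [← mul_pow]
    exact pow_le_pow_left₀ (hp u) h2 2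
  have h4 : inner ℝ (K u) u ^ 2 ≤ inner ℝ (K u) u * (‖u‖ ^ 2 * ∑ i, inner ℝ (K (b i)) (b i)) := by
    refine h3.trans ?_
    have h5 := mul_le_mul_of_nonneg_right h1 (sq_nonneg ‖u‖)
    linarith only [h5]
  have h5 : 0 ≤ ∑ i, inner ℝ (K (b i)) (b i) := Finset.sum_nonneg fun i _ => hp _
  rcases (hp u).eq_or_lt with h6 | h6
  · rw [← h6]; positivity
  · rw [sq] at h4
    exact le_of_mul_le_mul_left h4 h6

end fin

theorem mono_of_hasDerivAt {f f' : ℝ → ℝ} {T : ℝ} (h : ∀ t, T ≤ t → HasDerivAt f (f' t) t)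
    (h' : ∀ t, T ≤ t → 0 ≤ f' t) {s t : ℝ} (hs : T ≤ s) (hst : s ≤ t) : f s ≤ f t := by
  have h1 : MonotoneOn f (Ici T) := by
    refine monotoneOn_of_deriv_nonneg (convex_Ici T)
      (fun x hx => (h x hx).continuousAt.continuousWithinAt) (fun x hx => ?_) (fun x hx => ?_)
    · rw [interior_Ici] at hx
      exact (h x (le_of_lt hx)).differentiableAt.differentiableWithinAt
    · rw [interior_Ici] at hx
      rw [(h x (le_of_lt hx)).deriv]
      exact h' x (le_of_lt hx)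
  exact h1 hs (hs.trans hst) hst

end Vale.Agent.P253.H836
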